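import Mathlib

/-!
Integer coefficient lists as polynomials in one and two variables, and a kernel-checkable test for
the nonnegativity of a quadratic family on a box (coefficients in a projective coordinate).
-/

namespace Vale.P254.E.Pos

/-- A polynomial in one variable, lowest coefficient first. -/
abbrev Poly := List ℤ

/-- A polynomial in two variables: the coefficients of the powers of the first one. -/
abbrev Poly2 := List Poly

/-- Evaluation. -/
def ev : Poly → ℝ → ℝ
  | [], _ => 0
  | c :: t, x => (c : ℝ) + x * ev t x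

/-- Evaluation in two variables. -/
def ev2 : Poly2 → ℝ → ℝ → ℝ
  | [], _, _ => 0
  | r :: t, x, y => ev r y + x * ev2 t x y

@[simp] theorem ev_nil (x : ℝ) : ev [] x = 0 := rfl
@[simp] theorem ev_cons (c : ℤ) (t : Poly) (x : ℝ) : ev (c :: t) x = c + x * ev t x := rfl
@[simp] theorem ev2_nil (x y : ℝ) : ev2 [] x y = 0 := rfl
@[simp] theorem ev2_cons (r : Poly) (t : Poly2) (x y : ℝ) :
    ev2 (r :: t) x y = ev r y + x * ev2 t x y := rfl

/-- Sum. -/
def add : Poly → Poly → Poly
  | [], q => q
  | p, [] => p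
  | c :: t, d :: u => (c + d) :: add t u

/-- Scalar multiple. -/
def smul (k : ℤ) (p : Poly) : Poly := p.map (k * ·)

/-- Product. -/
def mul : Poly → Poly → Poly
  | [], _ => []
  | c :: t, q => add (smul c q) (0 :: mul t q)

/-- The formal derivative. -/
def deriv : Poly → Poly
  | [] => []
  | _ :: t => add t (0 :: deriv t)

theorem ev_add : ∀ (p q : Poly) (x : ℝ), ev (add p q) x = ev p x + ev q x
  | [], q, x => by simp [add]
  | c :: t, [], x => by simp [add]
  | c :: t, d :: u, x => by simp [add, ev_add t u x]; ring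

theorem ev_smul (k : ℤ) : ∀ (p : Poly) (x : ℝ), ev (smul k p) x = k * ev p x
  | [], x => by simp [smul]
  | c :: t, x => by
    have := ev_smul k t x
    simp only [smul, List.map_cons, ev_cons, Int.cast_mul] at this ⊢
    rw [this]; ring

theorem ev_mul : ∀ (p q : Poly) (x : ℝ), ev (mul p q) x = ev p x * ev q x
  | [], q, x => by simp [mul]
  | c :: t, q, x => by simp [mul, ev_add, ev_smul, ev_mul t q x]; ring

theorem hasDerivAt_ev : ∀ (p : Poly) (x : ℝ), HasDerivAt (ev p) (ev (deriv p) x) x
  | [], x => by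
    have : ev ([] : Poly) = fun _ => 0 := rfl
    rw [this]; simpa [deriv] using hasDerivAt_const x (0 : ℝ)
  | c :: t, x => by
    have e : ev (c :: t) = fun y => (c : ℝ) + y * ev t y := rfl
    rw [e]
    exact (((hasDerivAt_id' x).mul (hasDerivAt_ev t x)).const_add (c : ℝ)).congr_deriv
      (by simp [deriv, ev_add])

theorem continuous_ev (p : Poly) : Continuous (ev p) :=
  continuous_iff_continuousAt.2 fun x => (hasDerivAt_ev p x).continuousAt

/-- Sum in two variables. -/
def add2 : Poly2 → Poly2 → Poly2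
  | [], q => q
  | p, [] => p
  | c :: t, d :: u => add c d :: add2 t u

/-- Multiple by a polynomial in the second variable. -/
def smul2 (k : Poly) (p : Poly2) : Poly2 := p.map (mul k)

/-- Product in two variables. -/
def mul2 : Poly2 → Poly2 → Poly2
  | [], _ => []
  | c :: t, q => add2 (smul2 c q) ([] :: mul2 t q)

/-- A polynomial in the first variable as one in two variables. -/
def lift (p : Poly) : Poly2 := p.map (fun c => [c])

theorem ev2_add : ∀ (p q : Poly2) (x y : ℝ), ev2 (add2 p q) x y = ev2 p x y + ev2 q x y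
  | [], q, x, y => by simp [add2]
  | c :: t, [], x, y => by simp [add2]
  | c :: t, d :: u, x, y => by simp [add2, ev_add, ev2_add t u x y]; ring

theorem ev2_smul (k : Poly) : ∀ (p : Poly2) (x y : ℝ), ev2 (smul2 k p) x y = ev k y * ev2 p x y
  | [], x, y => by simp [smul2]
  | c :: t, x, y => by
    have := ev2_smul k t x y
    simp only [smul2, List.map_cons, ev2_cons, ev_mul] at this ⊢
    rw [this]; ring

theorem ev2_mul : ∀ (p q : Poly2) (x y : ℝ), ev2 (mul2 p q) x y = ev2 p x y * ev2 q x y
  | [], q, x, y => by simp [mul2]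
  | c :: t, q, x, y => by simp [mul2, ev2_add, ev2_smul, ev2_mul t q x y]; ring

theorem ev2_lift : ∀ (p : Poly) (x y : ℝ), ev2 (lift p) x y = ev p x
  | [], x, y => by simp [lift]
  | c :: t, x, y => by
    have := ev2_lift t x y
    simp only [lift, List.map_cons, ev2_cons, ev_cons, ev_nil] at this ⊢
    rw [this]; ring

theorem continuous_ev2 : ∀ p : Poly2, Continuous fun z : ℝ × ℝ => ev2 p z.1 z.2
  | [] => continuous_const
  | r :: t => ((continuous_ev r).comp continuous_snd).add
      (continuous_fst.mul (continuous_ev2 t))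

/-- Projective data `(a, b, c, d)` for the coordinate `x = (a + b u) / (c + d u)`, `u ≥ 0`. -/
structure Ival where
  a : ℤ
  b : ℤ
  c : ℤ
  d : ℤ

/-- Powers of a polynomial. -/
def pw (p : Poly) : ℕ → Poly
  | 0 => [1]
  | k + 1 => mul p (pw p k)

theorem ev_pw (p : Poly) (x : ℝ) : ∀ k, ev (pw p k) x = ev p x ^ k
  | 0 => by simp [pw]
  | k + 1 => by simp [pw, ev_mul, ev_pw p x k, pow_succ]; ring

/-- Homogenisation of degree `n` in the coordinate of `I`. -/
def trans (I : Ival) : ℕ → Poly → Poly
  | n, [] => smul 0 (pw [I.c, I.d] n)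
  | 0, k :: _ => [k]
  | n + 1, k :: t => add (smul k (pw [I.c, I.d] (n + 1))) (mul [I.a, I.b] (trans I n t))

theorem ev_trans (I : Ival) {x u : ℝ} (hx : x * (I.c + u * I.d) = I.a + u * I.b) :
    ∀ (n : ℕ) (p : Poly), p.length ≤ n + 1 →
      ev (trans I n p) u = ((I.c : ℝ) + u * I.d) ^ n * ev p x
  | n, [], _ => by cases n <;> simp [trans, ev_smul]
  | 0, k :: t, h => by
    have : t = [] := List.length_eq_zero_iff.1 (by simp at h; simp [h])
    subst this; simp [trans]
  | n + 1, k :: t, h => by
    have ih := ev_trans I hx n t (by simp at h; omega)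
    simp only [trans, ev_add, ev_smul, ev_mul, ev_pw, ev_cons, ev_nil, mul_zero, add_zero, ih]
    rw [pow_succ, ← hx]; ring

/-- Homogenisation of the second variable in every row. -/
def transY (J : Ival) (n : ℕ) (p : Poly2) : Poly2 := p.map (trans J n)

theorem ev2_transY (J : Ival) {y v : ℝ} (hy : y * (J.c + v * J.d) = J.a + v * J.b) (n : ℕ) :
    ∀ (p : Poly2), (∀ r ∈ p, r.length ≤ n + 1) → ∀ x : ℝ,
      ev2 (transY J n p) x v = ((J.c : ℝ) + v * J.d) ^ n * ev2 p x y
  | [], _, x => by simp [transY]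
  | r :: t, h, x => by
    have ih := ev2_transY J hy n t (fun s hs => h s (List.mem_cons_of_mem _ hs)) x
    simp only [transY, List.map_cons, ev2_cons] at ih ⊢
    rw [ev_trans J hy n r (h r List.mem_cons_self), ih]; ring

/-- Powers in two variables. -/
def pw2 (p : Poly) (k : ℕ) : Poly2 := lift (pw p k)

/-- Homogenisation of the first variable. -/
def transX (I : Ival) : ℕ → Poly2 → Poly2
  | n, [] => smul2 [] (pw2 [I.c, I.d] n)
  | 0, r :: _ => [r]
  | n + 1, r :: t =>
    add2 (smul2 r (pw2 [I.c, I.d] (n + 1))) (mul2 (lift [I.a, I.b]) (transX I n t))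

theorem ev2_transX (I : Ival) {x u : ℝ} (hx : x * (I.c + u * I.d) = I.a + u * I.b) (y : ℝ) :
    ∀ (n : ℕ) (p : Poly2), p.length ≤ n + 1 →
      ev2 (transX I n p) u y = ((I.c : ℝ) + u * I.d) ^ n * ev2 p x y
  | n, [], _ => by cases n <;> simp [transX, ev2_smul]
  | 0, r :: t, h => by
    have : t = [] := List.length_eq_zero_iff.1 (by simp at h; simp [h])
    subst this; simp [transX]
  | n + 1, r :: t, h => by
    have ih := ev2_transX I hx y n t (by simp at h; omega)
    simp only [transX, pw2, ev2_add, ev2_smul, ev2_mul, ev2_lift, ev_pw, ev_cons, ev_nil, mul_zero,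
      add_zero, ih, ev2_cons]
    rw [pow_succ, ← hx]; ring

/-- Whether `A q ^ 2 - B q + C ≥ 0` on `[0, 1]`. -/
def quadOK (A B C : ℤ) : Bool :=
  decide (0 ≤ C) && decide (0 ≤ A - B + C) &&
    (decide (A ≤ 0) || decide (B ≤ 0) || decide (2 * A ≤ B) || decide (B * B ≤ 4 * A * C))

theorem quadOK_sound {A B C : ℤ} (h : quadOK A B C = true) {q : ℝ} (h0 : 0 ≤ q) (h1 : q ≤ 1) :
    0 ≤ (A : ℝ) * q ^ 2 - B * q + C := by
  simp only [quadOK, Bool.and_eq_true, Bool.or_eq_true, decide_eq_true_eq] at h
  obtain ⟨⟨hC, hS⟩, hcase⟩ := h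
  have hC' : (0 : ℝ) ≤ C := by exact_mod_cast hC
  have hS' : (0 : ℝ) ≤ A - B + C := by exact_mod_cast hS
  have hq2 : 0 ≤ q * (1 - q) := mul_nonneg h0 (by linarith)
  rcases hcase with ((hA | hB) | hB2) | hD
  · have hA' : (A : ℝ) ≤ 0 := by exact_mod_cast hA
    nlinarith [mul_nonneg h0 hS', mul_nonneg (show (0 : ℝ) ≤ 1 - q by linarith) hC',
      mul_nonneg (neg_nonneg.2 hA') hq2]
  · have hB' : (B : ℝ) ≤ 0 := by exact_mod_cast hB
    by_cases hA : (0 : ℝ) ≤ A
    · nlinarith [mul_nonneg hA (sq_nonneg q), mul_nonneg h0 (neg_nonneg.2 hB')]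
    · nlinarith [mul_nonneg h0 hS', mul_nonneg (show (0 : ℝ) ≤ 1 - q by linarith) hC',
        mul_nonneg (neg_nonneg.2 (not_le.1 hA).le) hq2]
  · have hB' : 2 * (A : ℝ) ≤ B := by exact_mod_cast hB2
    by_cases hA : (0 : ℝ) ≤ A
    · nlinarith [mul_nonneg (show (0 : ℝ) ≤ 1 - q by linarith) (sub_nonneg.2 hB'),
        mul_nonneg hA (sq_nonneg (1 - q))]
    · nlinarith [mul_nonneg h0 hS', mul_nonneg (show (0 : ℝ) ≤ 1 - q by linarith) hC',
        mul_nonneg (neg_nonneg.2 (not_le.1 hA).le) hq2]
  · have hD' : (B : ℝ) * B ≤ 4 * A * C := by exact_mod_cast hD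
    rcases lt_trichotomy (A : ℝ) 0 with hA | hA | hA
    · nlinarith [mul_nonneg h0 hS', mul_nonneg (show (0 : ℝ) ≤ 1 - q by linarith) hC',
        mul_nonneg (neg_nonneg.2 hA.le) hq2]
    · nlinarith [mul_nonneg h0 hS', mul_nonneg (show (0 : ℝ) ≤ 1 - q by linarith) hC']
    · nlinarith [sq_nonneg (2 * (A : ℝ) * q - B)]

/-- Evaluation at an integer. -/
def evZ : Poly → ℤ → ℤ
  | [], _ => 0
  | c :: t, X => c + X * evZ t X

/-- The sum of the absolute values of the coefficients. -/
def nrm : Poly → ℤ
  | [] => 0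
  | c :: t => |c| + nrm t

/-- The same for two variables. -/
def nrm2 : Poly2 → ℤ
  | [] => 0
  | r :: t => nrm r + nrm2 t

/-- Evaluation at integers in two variables. -/
def evZ2 : Poly2 → ℤ → ℤ → ℤ
  | [], _, _ => 0
  | r :: t, X, Y => evZ r Y + X * evZ2 t X Y

/-- Homogeneous evaluation of degree `n` at `num / den`. -/
def hom : ℕ → Poly → ℤ → ℤ → ℤ
  | _, [], _, _ => 0
  | 0, k :: _, _, _ => k
  | n + 1, k :: t, num, den => k * den ^ (n + 1) + num * hom n t num den

/-- Absolute values of the coefficients. -/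
def absP (p : Poly2) : Poly2 := p.map fun r => r.map fun c => |c|

/-- Homogeneous evaluation in two variables. -/
def hom2 (n m : ℕ) (p : Poly2) (num den num' den' : ℤ) : ℤ :=
  hom n (p.map fun r => hom m r num' den') num den

theorem nrm_nonneg : ∀ p : Poly, 0 ≤ nrm p
  | [] => le_refl _
  | c :: t => add_nonneg (abs_nonneg c) (nrm_nonneg t)

theorem nrm2_nonneg : ∀ p : Poly2, 0 ≤ nrm2 p
  | [] => le_refl _
  | r :: t => add_nonneg (nrm_nonneg r) (nrm2_nonneg t)

theorem nrm_add : ∀ p q : Poly, nrm (add p q) ≤ nrm p + nrm q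
  | [], q => by simp [add, nrm]
  | c :: t, [] => by simp [add, nrm]
  | c :: t, d :: u => by
    simp only [add, nrm]
    linarith [abs_add_le c d, nrm_add t u]

theorem nrm_smul (k : ℤ) : ∀ p : Poly, nrm (smul k p) = |k| * nrm p
  | [] => by simp [smul, nrm]
  | c :: t => by
    have := nrm_smul k t
    simp only [smul, List.map_cons, nrm, abs_mul] at this ⊢
    rw [this]; ring

theorem nrm_mul : ∀ p q : Poly, nrm (mul p q) ≤ nrm p * nrm q
  | [], q => by simp [mul, nrm]
  | c :: t, q => by
    have h := nrm_add (smul c q) (0 :: mul t q)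
    simp only [mul, nrm, nrm_smul, abs_zero, zero_add] at h ⊢
    linarith [nrm_mul t q]

theorem nrm2_add : ∀ p q : Poly2, nrm2 (add2 p q) ≤ nrm2 p + nrm2 q
  | [], q => by simp [add2, nrm2]
  | c :: t, [] => by simp [add2, nrm2]
  | c :: t, d :: u => by
    simp only [add2, nrm2]
    linarith [nrm_add c d, nrm2_add t u]

theorem nrm2_smul (k : Poly) : ∀ p : Poly2, nrm2 (smul2 k p) ≤ nrm k * nrm2 p
  | [] => by simp [smul2, nrm2]
  | r :: t => by
    have := nrm2_smul k t
    simp only [smul2, List.map_cons, nrm2] at this ⊢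
    linarith [nrm_mul k r]

theorem nrm2_mul : ∀ p q : Poly2, nrm2 (mul2 p q) ≤ nrm2 p * nrm2 q
  | [], q => by simp [mul2, nrm2]
  | c :: t, q => by
    have h := nrm2_add (smul2 c q) ([] :: mul2 t q)
    simp only [mul2, nrm2, nrm, zero_add] at h ⊢
    linarith [nrm2_mul t q, nrm2_smul c q]

theorem nrm2_lift : ∀ p : Poly, nrm2 (lift p) = nrm p
  | [] => by simp [lift, nrm2, nrm]
  | c :: t => by
    have := nrm2_lift t
    simp only [lift, List.map_cons, nrm2, nrm] at this ⊢
    rw [this]; ring

theorem nrm_pw (p : Poly) : ∀ k, nrm (pw p k) ≤ nrm p ^ k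
  | 0 => by simp [pw, nrm]
  | k + 1 => by
    rw [pw, pow_succ, mul_comm (nrm p ^ k)]
    exact (nrm_mul _ _).trans (mul_le_mul_of_nonneg_left (nrm_pw p k) (nrm_nonneg p))

theorem nrm_trans (I : Ival) : ∀ (n : ℕ) (p : Poly), p.length ≤ n + 1 →
    nrm (trans I n p) ≤ hom n (p.map fun c => |c|) (|I.a| + |I.b|) (|I.c| + |I.d|)
  | n, [], _ => by cases n <;> simp [trans, hom, nrm_smul]
  | 0, k :: t, _ => by simp [trans, hom, nrm]
  | n + 1, k :: t, h => by
    have ih := nrm_trans I n t (by simp at h; omega)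
    have h1 := nrm_add (smul k (pw [I.c, I.d] (n + 1))) (mul [I.a, I.b] (trans I n t))
    have h2 := mul_le_mul_of_nonneg_left (nrm_pw [I.c, I.d] (n + 1)) (abs_nonneg k)
    have h3 := (nrm_mul [I.a, I.b] (trans I n t)).trans
      (mul_le_mul_of_nonneg_left ih (nrm_nonneg _))
    simp only [trans, hom, List.map_cons, nrm, nrm_smul, add_zero] at h1 h2 h3 ⊢
    linarith

theorem hom_mono {num den : ℤ} (hn : 0 ≤ num) (hd : 0 ≤ den) :
    ∀ (n : ℕ) (p q : Poly), List.Forall₂ (· ≤ ·) p q → hom n p num den ≤ hom n q num den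
  | n, [], _, h => by cases h; simp [hom]
  | 0, a :: p, _, h => by cases h; simpa [hom]
  | n + 1, a :: p, _, h => by
    cases h with
    | cons hab ht =>
      simp only [hom]
      exact add_le_add (mul_le_mul_of_nonneg_right hab (pow_nonneg hd _))
        (mul_le_mul_of_nonneg_left (hom_mono hn hd n _ _ ht) hn)

theorem nrm2_transX (I : Ival) : ∀ (n : ℕ) (p : Poly2), p.length ≤ n + 1 →
    nrm2 (transX I n p) ≤ hom n (p.map nrm) (|I.a| + |I.b|) (|I.c| + |I.d|)
  | n, [], _ => by
    have := nrm2_smul [] (pw2 [I.c, I.d] n)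
    have := nrm2_nonneg (smul2 [] (pw2 [I.c, I.d] n))
    cases n <;> simp [transX, hom, nrm] at * <;> linarith
  | 0, r :: t, _ => by simp [transX, hom, nrm2]
  | n + 1, r :: t, h => by
    have ih := nrm2_transX I n t (by simp at h; omega)
    have h1 := nrm2_add (smul2 r (pw2 [I.c, I.d] (n + 1))) (mul2 (lift [I.a, I.b]) (transX I n t))
    have h2 := (nrm2_smul r (pw2 [I.c, I.d] (n + 1))).trans
      (mul_le_mul_of_nonneg_left (le_of_eq (by rw [pw2, nrm2_lift])) (nrm_nonneg r))
    have h3 := (nrm2_mul (lift [I.a, I.b]) (transX I n t)).trans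
      (mul_le_mul_of_nonneg_left ih (nrm2_nonneg _))
    rw [nrm2_lift] at h3
    simp only [transX, hom, List.map_cons, nrm, add_zero] at h1 h2 h3 ⊢
    have h4 := mul_le_mul_of_nonneg_left (nrm_pw [I.c, I.d] (n + 1)) (nrm_nonneg r)
    simp only [nrm, add_zero] at h4
    linarith

/-- The bound for the coefficients after both homogenisations. -/
def homBound (n m : ℕ) (p : Poly2) (I J : Ival) : ℤ :=
  hom2 n m (absP p) (|I.a| + |I.b|) (|I.c| + |I.d|) (|J.a| + |J.b|) (|J.c| + |J.d|)

theorem nrm2_box (I J : Ival) (n m : ℕ) (p : Poly2) (hn : p.length ≤ n + 1)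
    (hm : ∀ r ∈ p, r.length ≤ m + 1) :
    nrm2 (transX I n (transY J m p)) ≤ homBound n m p I J := by
  refine (nrm2_transX I n _ (by simpa [transY] using hn)).trans ?_
  refine hom_mono (by positivity) (by positivity) n _ _ ?_
  simp only [transY, absP, List.map_map, List.forall₂_map_left_iff, List.forall₂_map_right_iff,
    List.forall₂_same]
  intro r hr
  exact nrm_trans J m r (hm r hr)

theorem evZ_cast : ∀ (p : Poly) (X : ℤ), ((evZ p X : ℤ) : ℝ) = ev p X
  | [], X => by simp [evZ]
  | c :: t, X => by simp [evZ, evZ_cast t X]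

theorem evZ2_cast : ∀ (p : Poly2) (X Y : ℤ), ((evZ2 p X Y : ℤ) : ℝ) = ev2 p X Y
  | [], X, Y => by simp [evZ2]
  | r :: t, X, Y => by simp [evZ2, evZ_cast, evZ2_cast t X Y]

theorem hom_cast {x : ℝ} {num den : ℤ} (hx : x * (den : ℝ) = num) :
    ∀ (n : ℕ) (p : Poly), p.length ≤ n + 1 → (hom n p num den : ℝ) = (den : ℝ) ^ n * ev p x
  | n, [], _ => by simp [hom]
  | 0, k :: t, h => by
    have : t = [] := List.length_eq_zero_iff.1 (by simp at h; simp [h])
    subst this; simp [hom]
  | n + 1, k :: t, h => by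
    have ih := hom_cast hx n t (by simp at h; omega)
    simp only [hom, Int.cast_add, Int.cast_mul, Int.cast_pow, ev_cons, ih]
    rw [pow_succ, ← hx]; ring

theorem length_add : ∀ p q : Poly, (add p q).length = max p.length q.length
  | [], q => by simp [add]
  | c :: t, [] => by simp [add]
  | c :: t, d :: u => by simp [add, length_add t u]

theorem length_mul_singleton (k : ℤ) (p : Poly) : (mul [k] p).length = max p.length 1 := by
  simp [mul, length_add, smul]

theorem length_mul_le : ∀ (p : Poly) (q : Poly), (mul p q).length ≤ p.length + q.length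
  | [], q => by simp [mul]
  | c :: t, q => by
    have := length_mul_le t q
    simp [mul, length_add, smul]
    omega

theorem length_pw (a b : ℤ) : ∀ k, (pw [a, b] k).length ≤ k + 1
  | 0 => by simp [pw]
  | k + 1 => by
    have := length_pw a b k
    simp [pw, mul, length_add, smul]
    omega

theorem length_trans (I : Ival) : ∀ (n : ℕ) (p : Poly), (trans I n p).length ≤ n + 1
  | 0, [] => by simp [trans, smul, pw]
  | n + 1, [] => by simpa [trans, smul] using length_pw I.c I.d (n + 1)
  | 0, k :: t => by simp [trans]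
  | n + 1, k :: t => by
    have := length_pw I.c I.d (n + 1)
    have := length_trans I n t
    simp [trans, mul, length_add, smul]
    omega

theorem rows_add2 {k : ℕ} : ∀ p q : Poly2, (∀ r ∈ p, r.length ≤ k) → (∀ r ∈ q, r.length ≤ k) →
    ∀ r ∈ add2 p q, r.length ≤ k
  | [], q, _, hq, r, hr => hq r (by simpa [add2] using hr)
  | c :: t, [], hp, _, r, hr => hp r (by simpa [add2] using hr)
  | c :: t, d :: u, hp, hq, r, hr => by
    simp only [add2, List.mem_cons] at hr
    rcases hr with rfl | hr
    · rw [length_add]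
      exact max_le (hp c List.mem_cons_self) (hq d List.mem_cons_self)
    · exact rows_add2 t u (fun s hs => hp s (List.mem_cons_of_mem _ hs))
        (fun s hs => hq s (List.mem_cons_of_mem _ hs)) r hr

theorem rows_mul2_lift {m : ℕ} : ∀ (p : Poly) (q : Poly2), (∀ r ∈ q, r.length ≤ m + 1) →
    ∀ r ∈ mul2 (lift p) q, r.length ≤ m + 1
  | [], q, _, r, hr => by simp [lift, mul2] at hr
  | c :: t, q, hq, r, hr => by
    simp only [lift, List.map_cons, mul2] at hr
    refine rows_add2 _ _ ?_ ?_ r hr
    · intro s hs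
      simp only [smul2, List.mem_map] at hs
      obtain ⟨x, hx, rfl⟩ := hs
      rw [length_mul_singleton]
      exact max_le (hq x hx) (by omega)
    · intro s hs
      simp only [List.mem_cons] at hs
      rcases hs with rfl | hs
      · simp
      · exact rows_mul2_lift t q hq s hs

theorem rows_transX (I : Ival) {m : ℕ} : ∀ (n : ℕ) (p : Poly2), (∀ r ∈ p, r.length ≤ m + 1) →
    ∀ r ∈ transX I n p, r.length ≤ m + 1
  | n, [], _, r, hr => by
    have : r = [] := by cases n <;> simp [transX, smul2, mul] at hr <;> exact hr.2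
    simp [this]
  | 0, c :: t, hp, r, hr => by
    simp only [transX, List.mem_singleton] at hr
    exact hr ▸ hp c List.mem_cons_self
  | n + 1, c :: t, hp, r, hr => by
    refine rows_add2 _ _ ?_ (rows_mul2_lift [I.a, I.b] _
      (rows_transX I n t fun s hs => hp s (List.mem_cons_of_mem _ hs))) r hr
    intro s hs
    simp only [smul2, pw2, lift, List.map_map, List.mem_map, Function.comp_apply] at hs
    obtain ⟨k, -, rfl⟩ := hs
    have := hp c List.mem_cons_self
    have h2 : ∀ p : Poly, (mul p [k]).length ≤ max p.length 0 := fun p => by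
      induction p with
      | nil => simp [mul]
      | cons a b ih => simp [mul, length_add, smul] at ih ⊢; omega
    exact (h2 c).trans (by omega)

theorem rows_box (I J : Ival) (n m : ℕ) (p : Poly2) :
    ∀ r ∈ transX I n (transY J m p), r.length ≤ m + 1 :=
  rows_transX I n _ fun r hr => by
    simp only [transY, List.mem_map] at hr
    obtain ⟨s, -, rfl⟩ := hr
    exact length_trans J m s

theorem length_add2 : ∀ p q : Poly2, (add2 p q).length = max p.length q.length
  | [], q => by simp [add2]
  | c :: t, [] => by simp [add2]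
  | c :: t, d :: u => by simp [add2, length_add2 t u]

theorem length_transX (I : Ival) : ∀ (n : ℕ) (p : Poly2), (transX I n p).length ≤ n + 1
  | 0, [] => by simp [transX, smul2, pw2, lift, pw]
  | n + 1, [] => by simpa [transX, smul2, pw2, lift] using length_pw I.c I.d (n + 1)
  | 0, r :: t => by simp [transX]
  | n + 1, r :: t => by
    have := length_pw I.c I.d (n + 1)
    have := length_transX I n t
    simp [transX, mul2, length_add2, smul2, pw2, lift]
    omega

end Vale.P254.E.Pos
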