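import Mathlib
import Vale.Agent.P254.E.Pos.Poly

/-!
The kernel test of one box in natural-number arithmetic: the homogenised coefficients are packed in
the digits of one number.
-/

namespace Vale.P254.E.Pos

/-- Homogeneous evaluation of degree `n`. -/
noncomputable def homR (n : ℕ) : List ℕ → ℕ → ℕ → ℕ :=
  Nat.rec (fun p _ _ => List.rec (motive := fun _ => ℕ) 0 (fun c _ _ => c) p)
    (fun n ih p num den => List.rec (motive := fun _ => ℕ) 0
      (fun c t _ => Nat.add (Nat.mul c (Nat.pow den (Nat.succ n))) (Nat.mul num (ih t num den))) p) n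

/-- Homogeneous evaluation in two variables. -/
noncomputable def homR2 (m n : ℕ) : List (List ℕ) → ℕ → ℕ → ℕ → ℕ → ℕ :=
  Nat.rec (fun p _ _ u v => List.rec (motive := fun _ => ℕ) 0 (fun r _ _ => homR m r u v) p)
    (fun n ih p num den u v => List.rec (motive := fun _ => ℕ) 0
      (fun r t _ => Nat.add (Nat.mul (homR m r u v) (Nat.pow den (Nat.succ n)))
        (Nat.mul num (ih t num den u v))) p) n

/-- `quadOK` for the shifted digits. -/
noncomputable def qokN (h a b c : ℕ) : Bool :=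
  Bool.rec false (Bool.rec false
    (Bool.rec (Bool.rec (Bool.rec
      (Nat.ble (Nat.mul (Nat.sub b h) (Nat.sub b h)) (Nat.mul (Nat.mul 4 (Nat.sub a h)) (Nat.sub c h)))
      true (Nat.ble (Nat.mul 2 a) (Nat.add b h))) true (Nat.ble b h)) true (Nat.ble a h))
    (Nat.ble (Nat.add b h) (Nat.add a c))) (Nat.ble h c)

/-- The test on all digits. -/
noncomputable def qdR (h B k : ℕ) : ℕ → ℕ → ℕ → Bool :=
  Nat.rec (fun _ _ _ => true) (fun _ ih a b c =>
    Bool.rec false (ih (Nat.div a B) (Nat.div b B) (Nat.div c B))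
      (qokN h (Nat.mod a B) (Nat.mod b B) (Nat.mod c B))) k

/-- The test in two levels. -/
noncomputable def qdR2 (h B X m k : ℕ) : ℕ → ℕ → ℕ → Bool :=
  Nat.rec (fun _ _ _ => true) (fun _ ih a b c =>
    Bool.rec false (ih (Nat.div a X) (Nat.div b X) (Nat.div c X))
      (qdR h B m (Nat.mod a X) (Nat.mod b X) (Nat.mod c X))) k

/-- The shift of all digits. -/
noncomputable def offR (h B k : ℕ) : ℕ := Nat.rec 0 (fun _ ih => Nat.add h (Nat.mul B ih)) k

/-- Nonnegative data: positive and negative parts, and a bound for the absolute values. -/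
structure Split where
  Ap : List (List ℕ)
  An : List (List ℕ)
  Bp : List (List ℕ)
  Bn : List (List ℕ)
  Cp : List (List ℕ)
  Cn : List (List ℕ)
  S : List (List ℕ)

/-- An interval with natural-number data. -/
structure NIval where
  a : ℕ
  b : ℕ
  c : ℕ
  d : ℕ

/-- The interval in integers. -/
def NIval.toIval (I : NIval) : Ival := ⟨I.a, I.b, I.c, I.d⟩

/-- The value of nonnegative data at the packed point. -/
noncomputable def valR (n m : ℕ) (p : List (List ℕ)) (I J : NIval) (X Y : ℕ) : ℕ :=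
  homR2 m n p (Nat.add I.a (Nat.mul X I.b)) (Nat.add I.c (Nat.mul X I.d))
    (Nat.add J.a (Nat.mul Y J.b)) (Nat.add J.c (Nat.mul Y J.d))

/-- The packed test, for the half base `h`. -/
noncomputable def packTest (n m : ℕ) (D : Split) (I J : NIval) (h : ℕ) : Bool :=
  let B := Nat.mul 2 h
  let X := Nat.pow B (Nat.succ m)
  let off := offR (offR h B (Nat.succ m)) X (Nat.succ n)
  qdR2 h B X (Nat.succ m) (Nat.succ n)
    (Nat.sub (Nat.add (valR n m D.Ap I J X B) off) (valR n m D.An I J X B))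
    (Nat.sub (Nat.add (valR n m D.Bp I J X B) off) (valR n m D.Bn I J X B))
    (Nat.sub (Nat.add (valR n m D.Cp I J X B) off) (valR n m D.Cn I J X B))

/-- The test on one box. -/
noncomputable def boxR (n m : ℕ) (D : Split) (I J : NIval) : Bool :=
  packTest n m D I J (Nat.succ (valR n m D.S I J 1 1))

/-- Difference of nonnegative data. -/
def subZ : List ℕ → List ℕ → Poly
  | p :: P, q :: Q => ((p : ℤ) - q) :: subZ P Q
  | _, _ => []

/-- The same for two variables. -/
def subZ2 : List (List ℕ) → List (List ℕ) → Poly2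
  | p :: P, q :: Q => subZ p q :: subZ2 P Q
  | _, _ => []

/-- Equal shapes, fitting lengths, and a sum bounded by `S`. -/
def shapeRow : List ℕ → List ℕ → List ℕ → Bool
  | [], [], _ => true
  | p :: P, q :: Q, s :: S => Nat.ble (p + q) s && shapeRow P Q S
  | _, _, _ => false

/-- The same for two variables. -/
def shape (m : ℕ) : List (List ℕ) → List (List ℕ) → List (List ℕ) → Bool
  | [], [], _ => true
  | p :: P, q :: Q, s :: S => Nat.ble s.length (m + 1) && shapeRow p q s && shape m P Q S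
  | _, _, _ => false

/-- The real polynomial of natural-number data. -/
def castP (p : List ℕ) : Poly := p.map fun c : ℕ => (c : ℤ)

/-- The same for two variables. -/
def castP2 (p : List (List ℕ)) : Poly2 := p.map castP

theorem homR_eq : ∀ (n : ℕ) (p : List ℕ) (num den : ℕ), p.length ≤ n + 1 →
    (homR n p num den : ℤ) = hom n (castP p) num den
  | n, [], num, den, _ => by cases n <;> simp [homR, hom, castP]
  | 0, c :: t, num, den, h => by simp [homR, hom, castP]
  | n + 1, c :: t, num, den, h => by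
    have ih := homR_eq n t num den (by simp at h; omega)
    show ((c * den ^ (n + 1) + num * homR n t num den : ℕ) : ℤ) = _
    push_cast
    rw [ih]
    simp [hom, castP]

theorem homR2_eq (m : ℕ) : ∀ (n : ℕ) (p : List (List ℕ)) (num den u v : ℕ), p.length ≤ n + 1 →
    (∀ r ∈ p, r.length ≤ m + 1) →
    (homR2 m n p num den u v : ℤ) = hom n ((castP2 p).map fun r => hom m r u v) num den
  | n, [], num, den, u, v, _, _ => by cases n <;> simp [homR2, hom, castP2]
  | 0, r :: t, num, den, u, v, h, hm => by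
    show ((homR m r u v : ℕ) : ℤ) = _
    rw [homR_eq m r u v (hm r List.mem_cons_self)]
    simp [hom, castP2]
  | n + 1, r :: t, num, den, u, v, h, hm => by
    have ih := homR2_eq m n t num den u v (by simp at h; omega)
      (fun s hs => hm s (List.mem_cons_of_mem _ hs))
    show ((homR m r u v * den ^ (n + 1) + num * homR2 m n t num den u v : ℕ) : ℤ) = _
    push_cast
    rw [ih, homR_eq m r u v (hm r List.mem_cons_self)]
    simp [hom, castP2]

theorem ev_hom2 {x y : ℝ} {num den num' den' : ℤ} (hx : x * (den : ℝ) = num)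
    (hy : y * (den' : ℝ) = num') (n m : ℕ) (p : Poly2) (hn : p.length ≤ n + 1)
    (hm : ∀ r ∈ p, r.length ≤ m + 1) :
    (hom n (p.map fun r => hom m r num' den') num den : ℝ)
      = (den : ℝ) ^ n * ((den' : ℝ) ^ m * ev2 p x y) := by
  rw [hom_cast hx n _ (by simpa using hn)]
  congr 1
  clear hn
  induction p with
  | nil => simp
  | cons r t ih =>
    simp only [List.map_cons, ev_cons, ev2_cons, hom_cast hy m r (hm r List.mem_cons_self),
      ih fun s hs => hm s (List.mem_cons_of_mem _ hs)]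
    ring

theorem shapeRow_spec : ∀ P Q S : List ℕ, shapeRow P Q S = true →
    P.length ≤ S.length ∧ Q.length = P.length ∧ (subZ P Q).length = P.length ∧
      (∀ x : ℝ, ev (subZ P Q) x = ev (castP P) x - ev (castP Q) x)
  | [], [], S, _ => by simp [subZ, castP]
  | p :: P, q :: Q, s :: S, h => by
    simp only [shapeRow, Bool.and_eq_true] at h
    obtain ⟨a, b, c, d⟩ := shapeRow_spec P Q S h.2
    refine ⟨by simpa using a, by simpa using b, by simpa [subZ] using c, fun x => ?_⟩
    simp only [subZ, castP, List.map_cons, ev_cons] at d ⊢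
    rw [d x]; push_cast; ring
  | [], _ :: _, _, h => by simp [shapeRow] at h
  | _ :: _, [], _, h => by simp [shapeRow] at h
  | _ :: _, _ :: _, [], h => by simp [shapeRow] at h

theorem shapeRow_le {num den : ℤ} (hn : 0 ≤ num) (hd : 0 ≤ den) :
    ∀ (m : ℕ) (P Q S : List ℕ), shapeRow P Q S = true →
      hom m ((subZ P Q).map fun c => |c|) num den ≤ hom m (castP S) num den
  | m, [], [], S, _ => by
    have : ∀ (k : ℕ) (S : List ℕ), 0 ≤ hom k (castP S) num den := by
      intro k
      induction k with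
      | zero => intro S; cases S <;> simp [hom, castP]
      | succ k ih =>
        intro S
        cases S with
        | nil => simp [hom, castP]
        | cons s S =>
          simp only [castP, List.map_cons, hom]
          exact add_nonneg (mul_nonneg (Int.natCast_nonneg s) (pow_nonneg hd _))
            (mul_nonneg hn (ih S))
    simpa [subZ, hom] using this m S
  | 0, p :: P, q :: Q, s :: S, h => by
    simp only [shapeRow, Bool.and_eq_true, Nat.ble_eq] at h
    simp only [subZ, castP, List.map_cons, hom]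
    rw [abs_le]; constructor <;> omega
  | m + 1, p :: P, q :: Q, s :: S, h => by
    simp only [shapeRow, Bool.and_eq_true, Nat.ble_eq] at h
    have h1 : |(p : ℤ) - q| ≤ s := by rw [abs_le]; constructor <;> omega
    simp only [subZ, castP, List.map_cons, hom]
    exact add_le_add (mul_le_mul_of_nonneg_right h1 (pow_nonneg hd _))
      (mul_le_mul_of_nonneg_left (shapeRow_le hn hd m P Q S h.2) hn)
  | _, [], _ :: _, _, h => by simp [shapeRow] at h
  | _, _ :: _, [], _, h => by simp [shapeRow] at h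
  | _, _ :: _, _ :: _, [], h => by simp [shapeRow] at h

theorem shape_spec (m : ℕ) : ∀ P Q S : List (List ℕ), shape m P Q S = true →
    P.length ≤ S.length ∧ Q.length = P.length ∧ (subZ2 P Q).length = P.length ∧
      (∀ r ∈ P, r.length ≤ m + 1) ∧ (∀ r ∈ Q, r.length ≤ m + 1) ∧
      (∀ r ∈ subZ2 P Q, r.length ≤ m + 1) ∧
      (∀ x y : ℝ, ev2 (subZ2 P Q) x y = ev2 (castP2 P) x y - ev2 (castP2 Q) x y)
  | [], [], S, _ => by simp [subZ2, castP2]
  | p :: P, q :: Q, s :: S, h => by
    simp only [shape, Bool.and_eq_true, Nat.ble_eq] at h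
    obtain ⟨a, b, c, e, f, i, d⟩ := shape_spec m P Q S h.2
    obtain ⟨a', b', c', d'⟩ := shapeRow_spec p q s h.1.2
    refine ⟨by simpa using a, by simpa using b, by simpa [subZ2] using c,
      List.forall_mem_cons.2 ⟨by omega, e⟩, List.forall_mem_cons.2 ⟨by omega, f⟩,
      List.forall_mem_cons.2 ⟨by omega, i⟩, fun x y => ?_⟩
    simp only [subZ2, castP2, List.map_cons, ev2_cons] at d ⊢
    rw [d x y, d' y]; ring
  | [], _ :: _, _, h => by simp [shape] at h
  | _ :: _, [], _, h => by simp [shape] at h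
  | _ :: _, _ :: _, [], h => by simp [shape] at h

theorem shape_le {num den u v : ℤ} (hn : 0 ≤ num) (hd : 0 ≤ den) (hu : 0 ≤ u) (hv : 0 ≤ v) (m : ℕ) :
    ∀ (n : ℕ) (P Q S : List (List ℕ)), shape m P Q S = true →
      hom2 n m (absP (subZ2 P Q)) num den u v
        ≤ hom n ((castP2 S).map fun r => hom m r u v) num den
  | n, [], [], S, _ => by
    have row : ∀ (k : ℕ) (r : List ℕ), 0 ≤ hom k (castP r) u v := by
      intro k
      induction k with
      | zero => intro r; cases r <;> simp [hom, castP]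
      | succ k ih =>
        intro r
        cases r with
        | nil => simp [hom, castP]
        | cons s r =>
          simp only [castP, List.map_cons, hom]
          exact add_nonneg (mul_nonneg (Int.natCast_nonneg s) (pow_nonneg hv _)) (mul_nonneg hu (ih r))
    have : ∀ (k : ℕ) (S : List (List ℕ)), 0 ≤ hom k ((castP2 S).map fun r => hom m r u v) num den := by
      intro k
      induction k with
      | zero => intro S; cases S <;> simp [hom, castP2, row]
      | succ k ih =>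
        intro S
        cases S with
        | nil => simp [hom, castP2]
        | cons s S =>
          simp only [castP2, List.map_cons, hom]
          exact add_nonneg (mul_nonneg (row m s) (pow_nonneg hd _)) (mul_nonneg hn (ih S))
    simpa [subZ2, absP, hom2, hom] using this n S
  | 0, p :: P, q :: Q, s :: S, h => by
    simp only [shape, Bool.and_eq_true] at h
    simpa [subZ2, absP, hom2, castP2, hom] using shapeRow_le hu hv m p q s h.1.2
  | n + 1, p :: P, q :: Q, s :: S, h => by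
    simp only [shape, Bool.and_eq_true] at h
    have ih := shape_le hn hd hu hv m n P Q S h.2
    simp only [subZ2, absP, hom2, castP2, List.map_cons, hom] at ih ⊢
    exact add_le_add (mul_le_mul_of_nonneg_right (shapeRow_le hu hv m p q s h.1.2) (pow_nonneg hd _))
      (mul_le_mul_of_nonneg_left ih hn)
  | _, [], _ :: _, _, h => by simp [shape] at h
  | _, _ :: _, [], _, h => by simp [shape] at h
  | _, _ :: _, _ :: _, [], h => by simp [shape] at h

theorem offR_succ (h B k : ℕ) : offR h B (k + 1) = h + B * offR h B k := rfl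

theorem range_off {h : ℕ} : ∀ (p : Poly) (k : ℕ), nrm p < (h : ℤ) → p.length ≤ k →
    0 ≤ evZ p ((2 * h : ℕ) : ℤ) + (offR h (2 * h) k : ℕ) ∧
      evZ p ((2 * h : ℕ) : ℤ) + (offR h (2 * h) k : ℕ) < ((2 * h : ℕ) : ℤ) ^ k
  | [], 0, _, _ => by simp [evZ, offR]
  | _ :: _, 0, _, hl => by simp at hl
  | p, k + 1, hb, hl => by
    have hh : (0 : ℤ) < h := lt_of_le_of_lt (nrm_nonneg p) hb
    have hB : (0 : ℤ) ≤ ((2 * h : ℕ) : ℤ) := Int.natCast_nonneg _
    have ht : nrm p.tail ≤ nrm p ∧ |p.headD 0| ≤ nrm p ∧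
        evZ p ((2 * h : ℕ) : ℤ) = p.headD 0 + ((2 * h : ℕ) : ℤ) * evZ p.tail ((2 * h : ℕ) : ℤ) := by
      cases p with
      | nil => simp [nrm, evZ]
      | cons c t =>
        simp only [nrm, List.tail_cons, List.headD_cons, evZ, and_true]
        constructor <;> linarith [abs_nonneg c, nrm_nonneg t]
    obtain ⟨lo, hi⟩ := range_off (h := h) p.tail k (lt_of_le_of_lt ht.1 hb) (by simp; omega)
    have hc := lt_of_le_of_lt ht.2.1 hb
    rw [abs_lt] at hc
    have hi' := mul_le_mul_of_nonneg_left (Int.le_sub_one_of_lt hi) hB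
    have lo' := mul_nonneg hB lo
    rw [offR_succ, ht.2.2, pow_succ]
    push_cast at *
    constructor <;> nlinarith

theorem digit_step {X o : ℕ} {N : ℕ} {r R : ℤ} {oR : ℕ}
    (hN : (N : ℤ) = r + (X : ℤ) * R + ((o + X * oR : ℕ) : ℤ)) (h1 : 0 ≤ r + o) (h2 : r + o < X) :
    ((Nat.mod N X : ℕ) : ℤ) = r + o ∧ ((Nat.div N X : ℕ) : ℤ) = R + oR := by
  have hd : (N : ℤ) / X = R + oR := by
    rw [hN, show r + (X : ℤ) * R + ((o + X * oR : ℕ) : ℤ) = r + o + (R + oR) * X by push_cast; ring,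
      Int.add_mul_ediv_right _ _ (by omega), Int.ediv_eq_zero_of_lt h1 h2]
    simp
  refine ⟨?_, by rw [← hd]; exact Int.natCast_div N X⟩
  rw [show ((Nat.mod N X : ℕ) : ℤ) = (N : ℤ) % X from Int.natCast_mod N X, Int.emod_def, hd, hN]
  push_cast; ring

theorem qokN_sound {h a b c : ℕ} (hq : qokN h a b c = true) :
    quadOK ((a : ℤ) - h) ((b : ℤ) - h) ((c : ℤ) - h) = true := by
  simp only [quadOK, Bool.and_eq_true, Bool.or_eq_true, decide_eq_true_eq]
  unfold qokN at hq
  cases e1 : Nat.ble h c <;> simp only [e1] at hq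
  · simp at hq
  cases e2 : Nat.ble (Nat.add b h) (Nat.add a c) <;> simp only [e2] at hq
  · simp at hq
  rw [Nat.ble_eq] at e1 e2
  simp only [Nat.add_eq] at e2
  refine ⟨⟨by omega, by omega⟩, ?_⟩
  cases e3 : Nat.ble a h
  swap; · rw [Nat.ble_eq] at e3; left; left; left; omega
  cases e4 : Nat.ble b h
  swap; · rw [Nat.ble_eq] at e4; left; left; right; omega
  cases e5 : Nat.ble (Nat.mul 2 a) (Nat.add b h)
  swap; · rw [Nat.ble_eq, Nat.add_eq, Nat.mul_eq] at e5; left; right; omega
  simp only [e3, e4, e5] at hq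
  rw [Nat.ble_eq] at hq
  right
  have ha : ¬a ≤ h := by intro ha; rw [← Nat.ble_eq, e3] at ha; simp at ha
  have hb : ¬b ≤ h := by intro hb; rw [← Nat.ble_eq, e4] at hb; simp at hb
  have := (Int.ofNat_le).2 hq
  simp only [Nat.mul_eq, Nat.sub_eq, Nat.cast_mul, Nat.cast_sub (le_of_lt (not_le.1 ha)),
    Nat.cast_sub (le_of_lt (not_le.1 hb)), Nat.cast_sub e1, Nat.cast_ofNat] at this
  linarith

theorem qdR_sound {h : ℕ} {v q : ℝ} (hv : 0 ≤ v) (h0 : 0 ≤ q) (h1 : q ≤ 1) :
    ∀ (k : ℕ) (A B C : Poly) (a b c : ℕ), nrm A < (h : ℤ) → nrm B < (h : ℤ) → nrm C < (h : ℤ) →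
      A.length ≤ k → B.length ≤ k → C.length ≤ k →
      (a : ℤ) = evZ A (2 * h : ℕ) + (offR h (2 * h) k : ℕ) →
      (b : ℤ) = evZ B (2 * h : ℕ) + (offR h (2 * h) k : ℕ) →
      (c : ℤ) = evZ C (2 * h : ℕ) + (offR h (2 * h) k : ℕ) →
      qdR h (2 * h) k a b c = true → 0 ≤ ev A v * q ^ 2 - ev B v * q + ev C v
  | 0, A, B, C, a, b, c, _, _, _, lA, lB, lC, _, _, _, _ => by
    simp [List.length_eq_zero_iff.1 (Nat.le_zero.1 lA), List.length_eq_zero_iff.1 (Nat.le_zero.1 lB),
      List.length_eq_zero_iff.1 (Nat.le_zero.1 lC)]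
  | k + 1, A, B, C, a, b, c, bA, bB, bC, lA, lB, lC, ea, eb, ec, hd => by
    have step : ∀ (P : Poly) (p : ℕ), nrm P < (h : ℤ) → P.length ≤ k + 1 →
        (p : ℤ) = evZ P (2 * h : ℕ) + (offR h (2 * h) (k + 1) : ℕ) →
        ((Nat.mod p (2 * h) : ℕ) : ℤ) = P.headD 0 + h ∧
        ((Nat.div p (2 * h) : ℕ) : ℤ) = evZ P.tail (2 * h : ℕ) + (offR h (2 * h) k : ℕ) ∧
        nrm P.tail < (h : ℤ) ∧ P.tail.length ≤ k := by
      intro P p bP lP ep
      have hc : |P.headD 0| < (h : ℤ) ∧ nrm P.tail < (h : ℤ) ∧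
          evZ P (2 * h : ℕ) = P.headD 0 + ((2 * h : ℕ) : ℤ) * evZ P.tail (2 * h : ℕ) := by
        cases P with
        | nil => simpa [nrm, evZ] using bP
        | cons c t =>
          simp only [nrm] at bP
          simp only [List.tail_cons, List.headD_cons, evZ, and_true]
          constructor <;> linarith [abs_nonneg c, nrm_nonneg t]
      obtain ⟨hc1, hc2⟩ := abs_lt.1 hc.1
      rw [hc.2.2, offR_succ] at ep
      obtain ⟨d1, d2⟩ := digit_step ep (by linarith) (by push_cast; linarith)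
      exact ⟨d1, d2, hc.2.1, by simp; omega⟩
    obtain ⟨a1, a2, a3, a4⟩ := step A a bA lA ea
    obtain ⟨b1, b2, b3, b4⟩ := step B b bB lB eb
    obtain ⟨c1, c2, c3, c4⟩ := step C c bC lC ec
    change Bool.rec false (qdR h (2 * h) k (Nat.div a (2 * h)) (Nat.div b (2 * h)) (Nat.div c (2 * h)))
      (qokN h (Nat.mod a (2 * h)) (Nat.mod b (2 * h)) (Nat.mod c (2 * h))) = true at hd
    cases e : qokN h (Nat.mod a (2 * h)) (Nat.mod b (2 * h)) (Nat.mod c (2 * h)) <;> simp only [e] at hd
    · simp at hd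
    have hq := qokN_sound e
    rw [a1, b1, c1] at hq
    simp only [add_sub_cancel_right] at hq
    have h3 := mul_nonneg hv (qdR_sound hv h0 h1 k _ _ _ _ _ _ a3 b3 c3 a4 b4 c4 a2 b2 c2 hd)
    have hh : ∀ p : Poly, ev p v = (p.headD 0 : ℤ) + v * ev p.tail v := fun p => by cases p <;> simp
    rw [hh A, hh B, hh C]
    linarith [quadOK_sound hq h0 h1]

theorem qdR2_sound {h m : ℕ} {u v q : ℝ} (hu : 0 ≤ u) (hv : 0 ≤ v) (h0 : 0 ≤ q) (h1 : q ≤ 1) :
    ∀ (k : ℕ) (A B C : Poly2) (a b c : ℕ),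
      nrm2 A < (h : ℤ) → nrm2 B < (h : ℤ) → nrm2 C < (h : ℤ) →
      A.length ≤ k → B.length ≤ k → C.length ≤ k →
      (∀ r ∈ A, r.length ≤ m) → (∀ r ∈ B, r.length ≤ m) → (∀ r ∈ C, r.length ≤ m) →
      (a : ℤ) = evZ2 A ((2 * h) ^ m : ℕ) (2 * h : ℕ) + (offR (offR h (2 * h) m) ((2 * h) ^ m) k : ℕ) →
      (b : ℤ) = evZ2 B ((2 * h) ^ m : ℕ) (2 * h : ℕ) + (offR (offR h (2 * h) m) ((2 * h) ^ m) k : ℕ) →
      (c : ℤ) = evZ2 C ((2 * h) ^ m : ℕ) (2 * h : ℕ) + (offR (offR h (2 * h) m) ((2 * h) ^ m) k : ℕ) →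
      qdR2 h (2 * h) ((2 * h) ^ m) m k a b c = true →
      0 ≤ ev2 A u v * q ^ 2 - ev2 B u v * q + ev2 C u v
  | 0, A, B, C, a, b, c, _, _, _, lA, lB, lC, _, _, _, _, _, _, _ => by
    simp [List.length_eq_zero_iff.1 (Nat.le_zero.1 lA), List.length_eq_zero_iff.1 (Nat.le_zero.1 lB),
      List.length_eq_zero_iff.1 (Nat.le_zero.1 lC)]
  | k + 1, A, B, C, a, b, c, bA, bB, bC, lA, lB, lC, rA, rB, rC, ea, eb, ec, hd => by
    set X := (2 * h) ^ m with hX
    set o := offR h (2 * h) m with ho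
    have step : ∀ (P : Poly2) (p : ℕ), nrm2 P < (h : ℤ) → P.length ≤ k + 1 →
        (∀ r ∈ P, r.length ≤ m) →
        (p : ℤ) = evZ2 P (X : ℕ) (2 * h : ℕ) + (offR o X (k + 1) : ℕ) →
        ((Nat.mod p X : ℕ) : ℤ) = evZ (P.headD []) (2 * h : ℕ) + o ∧
        ((Nat.div p X : ℕ) : ℤ) = evZ2 P.tail (X : ℕ) (2 * h : ℕ) + (offR o X k : ℕ) ∧
        nrm (P.headD []) < (h : ℤ) ∧ nrm2 P.tail < (h : ℤ) ∧ (P.headD []).length ≤ m ∧
        P.tail.length ≤ k ∧ ∀ r ∈ P.tail, r.length ≤ m := by
      intro P p bP lP rP ep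
      have hc : nrm (P.headD []) < (h : ℤ) ∧ nrm2 P.tail < (h : ℤ) ∧ (P.headD []).length ≤ m ∧
          evZ2 P (X : ℕ) (2 * h : ℕ)
            = evZ (P.headD []) (2 * h : ℕ) + ((X : ℕ) : ℤ) * evZ2 P.tail (X : ℕ) (2 * h : ℕ) := by
        cases P with
        | nil => simpa [nrm2, nrm, evZ2, evZ] using bP
        | cons r t =>
          simp only [nrm2] at bP
          simp only [List.tail_cons, List.headD_cons, evZ2, and_true]
          exact ⟨by linarith [nrm2_nonneg t], by linarith [nrm_nonneg r], rP r List.mem_cons_self⟩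
      rw [hc.2.2.2, offR_succ] at ep
      obtain ⟨r1, r2⟩ := range_off (P.headD []) m hc.1 hc.2.2.1
      obtain ⟨d1, d2⟩ := digit_step ep r1 (by rw [hX]; push_cast at *; exact r2)
      exact ⟨d1, d2, hc.1, hc.2.1, hc.2.2.1, by simp; omega, fun r hr => rP r (List.mem_of_mem_tail hr)⟩
    obtain ⟨a1, a2, a3, a4, a5, a6, a7⟩ := step A a bA lA rA ea
    obtain ⟨b1, b2, b3, b4, b5, b6, b7⟩ := step B b bB lB rB eb
    obtain ⟨c1, c2, c3, c4, c5, c6, c7⟩ := step C c bC lC rC ec
    change Bool.rec false (qdR2 h (2 * h) X m k (Nat.div a X) (Nat.div b X) (Nat.div c X))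
      (qdR h (2 * h) m (Nat.mod a X) (Nat.mod b X) (Nat.mod c X)) = true at hd
    cases e : qdR h (2 * h) m (Nat.mod a X) (Nat.mod b X) (Nat.mod c X) <;> simp only [e] at hd
    · simp at hd
    have h3 := mul_nonneg hu
      (qdR2_sound hu hv h0 h1 k _ _ _ _ _ _ a4 b4 c4 a6 b6 c6 a7 b7 c7 a2 b2 c2 hd)
    have hh : ∀ p : Poly2, ev2 p u v = ev (p.headD []) v + u * ev2 p.tail u v := fun p => by
      cases p <;> simp
    rw [hh A, hh B, hh C]
    linarith [qdR_sound hv h0 h1 m _ _ _ _ _ _ a3 b3 c3 a5 b5 c5 a1 b1 c1 e]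

/-- One box, for the signed data `subZ2 p q`. -/
theorem boxR_sound {n m : ℕ} {D : Split} {I J : NIval}
    (sA : shape m D.Ap D.An D.S = true) (sB : shape m D.Bp D.Bn D.S = true)
    (sC : shape m D.Cp D.Cn D.S = true) (hS : D.S.length ≤ n + 1) (hSm : ∀ r ∈ D.S, r.length ≤ m + 1)
    (hI : 0 < I.c) (hJ : 0 < J.c) (h : boxR n m D I J = true)
    {u v q : ℝ} (hu : 0 ≤ u) (hv : 0 ≤ v) (h0 : 0 ≤ q) (h1 : q ≤ 1) :
    0 ≤ ev2 (transX I.toIval n (transY J.toIval m (subZ2 D.Ap D.An))) u v * q ^ 2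
      - ev2 (transX I.toIval n (transY J.toIval m (subZ2 D.Bp D.Bn))) u v * q
      + ev2 (transX I.toIval n (transY J.toIval m (subZ2 D.Cp D.Cn))) u v := by
  change packTest n m D I J (Nat.succ (valR n m D.S I J 1 1)) = true at h
  set k := Nat.succ (valR n m D.S I J 1 1) with hk
  have bnd : ∀ P Q : List (List ℕ), shape m P Q D.S = true →
      nrm2 (transX I.toIval n (transY J.toIval m (subZ2 P Q))) < (k : ℤ) := by
    intro P Q hs
    obtain ⟨sp, sq, sl, _, _, rz, _⟩ := shape_spec m P Q D.S hs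
    refine (nrm2_box I.toIval J.toIval n m _ (by omega) rz).trans_lt ?_
    rw [hk, Nat.cast_succ, valR, homR2_eq m n D.S _ _ _ _ hS hSm, Int.lt_add_one_iff]
    simp only [homBound, NIval.toIval, Nat.add_eq, Nat.mul_eq, one_mul, Nat.cast_add, Nat.abs_cast]
    exact shape_le (by positivity) (by positivity) (by positivity) (by positivity) m n P Q D.S hs
  set X := (2 * k) ^ (m + 1) with hX
  set off := offR (offR k (2 * k) (m + 1)) X (n + 1) with hoff
  have hrowpos : ∀ (P : Poly2) (j : ℕ), P.length ≤ j → (∀ r ∈ P, r.length ≤ m + 1) → nrm2 P < (k : ℤ) →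
      0 ≤ evZ2 P (X : ℕ) (2 * k : ℕ) + (offR (offR k (2 * k) (m + 1)) X j : ℕ) := by
    intro P
    induction P with
    | nil => intro j _ _ _; simp [evZ2]
    | cons r t ih =>
      intro j hj hr hb
      obtain ⟨j, rfl⟩ : ∃ i, j = i + 1 := ⟨j - 1, by simp at hj; omega⟩
      simp only [nrm2] at hb
      have h1' := ih j (by simp at hj; omega) (fun s hs => hr s (List.mem_cons_of_mem _ hs))
        (by linarith [nrm_nonneg r])
      obtain ⟨r1, -⟩ := range_off (h := k) r (m + 1) (by linarith [nrm2_nonneg t]) (hr r List.mem_cons_self)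
      have h2' := mul_nonneg (Int.natCast_nonneg X) h1'
      rw [mul_add] at h2'
      rw [evZ2, offR_succ (offR k (2 * k) (m + 1)) X j, Nat.cast_add, Nat.cast_mul X]
      linarith
  have packed : ∀ P Q : List (List ℕ), shape m P Q D.S = true →
      ((Nat.sub (Nat.add (valR n m P I J X (2 * k)) off) (valR n m Q I J X (2 * k)) : ℕ) : ℤ)
        = evZ2 (transX I.toIval n (transY J.toIval m (subZ2 P Q))) (X : ℕ) (2 * k : ℕ) + off := by
    intro P Q hs
    obtain ⟨sp, sq, sl, rp, rq, rz, sev⟩ := shape_spec m P Q D.S hs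
    have hden : (0 : ℝ) < (I.c : ℝ) + (X : ℝ) * I.d :=
      add_pos_of_pos_of_nonneg (by exact_mod_cast hI) (by positivity)
    have hden' : (0 : ℝ) < (J.c : ℝ) + ((2 * k : ℕ) : ℝ) * J.d :=
      add_pos_of_pos_of_nonneg (by exact_mod_cast hJ) (by positivity)
    have ex := div_mul_cancel₀ ((I.a : ℝ) + (X : ℝ) * I.b) hden.ne'
    have ey := div_mul_cancel₀ ((J.a : ℝ) + ((2 * k : ℕ) : ℝ) * J.b) hden'.ne'
    have hv' : ∀ R : List (List ℕ), R.length ≤ n + 1 → (∀ r ∈ R, r.length ≤ m + 1) →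
        (valR n m R I J X (2 * k) : ℝ) = ((I.c : ℝ) + (X : ℝ) * I.d) ^ n
          * (((J.c : ℝ) + ((2 * k : ℕ) : ℝ) * J.d) ^ m * ev2 (castP2 R)
            (((I.a : ℝ) + (X : ℝ) * I.b) / ((I.c : ℝ) + (X : ℝ) * I.d))
            (((J.a : ℝ) + ((2 * k : ℕ) : ℝ) * J.b) / ((J.c : ℝ) + ((2 * k : ℕ) : ℝ) * J.d))) := by
      intro R hR hRm
      rw [← Int.cast_natCast, valR, homR2_eq m n R _ _ _ _ hR hRm]
      rw [ev_hom2 (x := ((I.a : ℝ) + (X : ℝ) * I.b) / ((I.c : ℝ) + (X : ℝ) * I.d))
        (y := ((J.a : ℝ) + ((2 * k : ℕ) : ℝ) * J.b) / ((J.c : ℝ) + ((2 * k : ℕ) : ℝ) * J.d))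
        (by push_cast at ex ⊢; simpa using ex) (by push_cast at ey ⊢; simpa using ey) n m (castP2 R)
        (by simpa [castP2] using hR) (fun r hr => by
          simp only [castP2, List.mem_map] at hr
          obtain ⟨s, hs', rfl⟩ := hr
          simpa [castP] using hRm s hs')]
      simp
    have hT : ((evZ2 (transX I.toIval n (transY J.toIval m (subZ2 P Q))) (X : ℕ) (2 * k : ℕ) : ℤ) : ℝ)
        = (valR n m P I J X (2 * k) : ℝ) - (valR n m Q I J X (2 * k) : ℝ) := by
      rw [evZ2_cast, hv' P (by omega) rp, hv' Q (by omega) rq,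
        ev2_transX I.toIval (by simpa [NIval.toIval] using ex) _ n _ (by simp [transY]; omega),
        ev2_transY J.toIval (by simpa [NIval.toIval] using ey) m _ rz, sev]
      simp [NIval.toIval]
      ring
    have hTz : evZ2 (transX I.toIval n (transY J.toIval m (subZ2 P Q))) (X : ℕ) (2 * k : ℕ)
        = (valR n m P I J X (2 * k) : ℤ) - valR n m Q I J X (2 * k) := by exact_mod_cast hT
    have := hrowpos _ (n + 1) (length_transX I.toIval n (transY J.toIval m (subZ2 P Q)))
      (rows_box I.toIval J.toIval n m _) (bnd P Q hs)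
    rw [hTz, ← hoff] at this
    rw [hTz, Nat.sub_eq, Nat.add_eq, Nat.cast_sub (by omega)]
    push_cast; ring
  exact qdR2_sound (h := k) (m := m + 1) hu hv h0 h1 (n + 1) _ _ _ _ _ _
    (bnd _ _ sA) (bnd _ _ sB) (bnd _ _ sC)
    (length_transX _ _ _) (length_transX _ _ _) (length_transX _ _ _)
    (rows_box _ _ _ _ _) (rows_box _ _ _ _ _) (rows_box _ _ _ _ _)
    (packed _ _ sA) (packed _ _ sB) (packed _ _ sC) h

end Vale.P254.E.Pos
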