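import Mathlib
import Vale.Agent.P254.E.Pos.Pack

/-!
Subdivision certificates for `A q ^ 2 - B q + C ≥ 0` on a box, `0 ≤ q ≤ 1`.
-/

namespace Vale.P254.E.Pos

/-- The point lies in the closed interval of `I`. -/
def Ival.Mem (I : Ival) (x : ℝ) : Prop := (I.a : ℝ) ≤ I.c * x ∧ (I.d : ℝ) * x ≤ I.b

/-- The data are an interval of positive length. -/
def Ival.ok (I : Ival) : Bool :=
  decide (0 < I.c) && decide (0 ≤ I.d) && decide (I.a * I.d < I.b * I.c)

/-- A coordinate for every point of the half open interval. -/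
theorem Ival.coord {I : Ival} (h : I.ok = true) {x : ℝ} (h1 : (I.a : ℝ) ≤ I.c * x)
    (h2 : (I.d : ℝ) * x < I.b) :
    ∃ u : ℝ, 0 ≤ u ∧ x * (I.c + u * I.d) = I.a + u * I.b ∧ (0 : ℝ) < I.c + u * I.d := by
  simp only [Ival.ok, Bool.and_eq_true, decide_eq_true_eq] at h
  obtain ⟨⟨hc, hd⟩, -⟩ := h
  have hc' : (0 : ℝ) < I.c := by exact_mod_cast hc
  have hd' : (0 : ℝ) ≤ I.d := by exact_mod_cast hd
  refine ⟨(I.c * x - I.a) / (I.b - I.d * x), div_nonneg (by linarith) (by linarith), ?_, ?_⟩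
  · have hne : (I.b : ℝ) - I.d * x ≠ 0 := by linarith
    generalize hu : ((I.c : ℝ) * x - I.a) / (I.b - I.d * x) = u
    rw [div_eq_iff hne] at hu
    linear_combination hu
  · have := mul_nonneg (div_nonneg (show (0 : ℝ) ≤ I.c * x - I.a by linarith)
      (show (0 : ℝ) ≤ I.b - I.d * x by linarith)) hd'
    linarith

/-- A property closed in `x` and true on the half open interval holds on the closed one. -/
theorem Ival.closure_of {I : Ival} (h : I.ok = true) {F : ℝ → ℝ} (hF : Continuous F)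
    (hopen : ∀ x : ℝ, (I.a : ℝ) ≤ I.c * x → (I.d : ℝ) * x < I.b → 0 ≤ F x)
    {x : ℝ} (hx : I.Mem x) : 0 ≤ F x := by
  rcases hx.2.lt_or_eq with hlt | heq
  · exact hopen x hx.1 hlt
  simp only [Ival.ok, Bool.and_eq_true, decide_eq_true_eq] at h
  obtain ⟨⟨hc, hd⟩, hlen⟩ := h
  have hc' : (0 : ℝ) < I.c := by exact_mod_cast hc
  have hd' : (0 : ℝ) ≤ I.d := by exact_mod_cast hd
  have hlen' : (I.a : ℝ) * I.d < I.b * I.c := by exact_mod_cast hlen
  have hd0 : (0 : ℝ) < I.d := by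
    rcases hd'.lt_or_eq with h0 | h0
    · exact h0
    · rw [← h0] at hlen' heq
      rw [mul_zero] at hlen'; rw [zero_mul] at heq
      rw [← heq, zero_mul] at hlen'
      exact absurd hlen' (lt_irrefl _)
  have hax : (I.a : ℝ) / I.c < x := by
    rw [div_lt_iff₀ hc']
    exact lt_of_mul_lt_mul_right (show (I.a : ℝ) * I.d < x * I.c * I.d by
      rw [mul_right_comm, mul_comm x, heq]; exact hlen') hd'
  refine (isClosed_le continuous_const hF).closure_subset_iff.2
    (fun y (hy : y ∈ Set.Ioo ((I.a : ℝ) / I.c) x) => ?_) ?_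
  · exact hopen y (by rw [mul_comm]; exact (div_le_iff₀ hc').1 hy.1.le)
      (by rw [← heq]; exact mul_lt_mul_of_pos_left hy.2 hd0)
  · rw [closure_Ioo hax.ne]; exact ⟨hax.le, le_rfl⟩

/-- The data are an interval of positive length. -/
noncomputable def NIval.okN (I : NIval) : Bool :=
  Bool.rec false (Nat.ble (Nat.succ (Nat.mul I.a I.d)) (Nat.mul I.b I.c)) (Nat.ble 1 I.c)

/-- A subdivision of a box by points `p / r`. -/
inductive Tree
  | leaf
  | splitX (p r : ℕ) (L R : Tree)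
  | splitY (p r : ℕ) (L R : Tree)

/-- All leaves pass the test. -/
noncomputable def check (n m : ℕ) (D : Split) (t : Tree) : NIval → NIval → Bool :=
  Tree.rec (fun I J => Bool.rec false (Bool.rec false (boxR n m D I J) J.okN) I.okN)
    (fun p r _ _ L R I J => Bool.rec false (R ⟨p, I.b, r, I.d⟩ J) (L ⟨I.a, p, I.c, r⟩ J))
    (fun p r _ _ L R I J => Bool.rec false (R I ⟨p, J.b, r, J.d⟩) (L I ⟨J.a, p, J.c, r⟩)) t

/-- The shapes fit. -/
def Split.ok (n m : ℕ) (D : Split) : Bool :=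
  shape m D.Ap D.An D.S && shape m D.Bp D.Bn D.S && shape m D.Cp D.Cn D.S &&
    Nat.ble D.S.length (n + 1) && D.S.all fun r => Nat.ble r.length (m + 1)

theorem leaf_sound {n m : ℕ} {D : Split} (hD : D.ok n m = true) {I J : NIval}
    (hI : I.okN = true) (hJ : J.okN = true) (h : boxR n m D I J = true) {x y q : ℝ}
    (hx : I.toIval.Mem x) (hy : J.toIval.Mem y) (h0 : 0 ≤ q) (h1 : q ≤ 1) :
    0 ≤ ev2 (subZ2 D.Ap D.An) x y * q ^ 2 - ev2 (subZ2 D.Bp D.Bn) x y * q
      + ev2 (subZ2 D.Cp D.Cn) x y := by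
  simp only [Split.ok, Bool.and_eq_true, Nat.ble_eq, List.all_eq_true] at hD
  obtain ⟨⟨⟨⟨sA, sB⟩, sC⟩, hS⟩, hSm⟩ := hD
  have okI : ∀ K : NIval, K.okN = true → K.toIval.ok = true ∧ 0 < K.c := by
    intro K hK
    unfold NIval.okN at hK
    cases e : Nat.ble 1 K.c <;> simp only [e] at hK
    · simp at hK
    rw [Nat.ble_eq] at e hK
    simp only [Nat.mul_eq] at hK
    refine ⟨?_, e⟩
    have h1 : (0 : ℤ) < K.c := by omega
    have h2 : (0 : ℤ) ≤ K.d := Int.natCast_nonneg _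
    have h3 : (K.a : ℤ) * K.d < K.b * K.c := by exact_mod_cast (show K.a * K.d < K.b * K.c by omega)
    simp [Ival.ok, NIval.toIval, h3]
    exact e
  obtain ⟨oI, cI⟩ := okI I hI
  obtain ⟨oJ, cJ⟩ := okI J hJ
  set A := subZ2 D.Ap D.An
  set B := subZ2 D.Bp D.Bn
  set C := subZ2 D.Cp D.Cn
  have hcont : Continuous fun z : ℝ × ℝ =>
      ev2 A z.1 z.2 * q ^ 2 - ev2 B z.1 z.2 * q + ev2 C z.1 z.2 :=
    ((((continuous_ev2 A).mul continuous_const)).sub
      ((continuous_ev2 B).mul continuous_const)).add (continuous_ev2 C)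
  refine Ival.closure_of (F := fun y' => ev2 A x y' * q ^ 2 - ev2 B x y' * q + ev2 C x y') oJ
    (hcont.comp (continuous_const.prodMk continuous_id)) (fun y' hy1 hy2 => ?_) hy
  refine Ival.closure_of (F := fun x' => ev2 A x' y' * q ^ 2 - ev2 B x' y' * q + ev2 C x' y') oI
    (hcont.comp (continuous_id.prodMk continuous_const)) (fun x' hx1 hx2 => ?_) hx
  obtain ⟨u, hu, eu, pu⟩ := Ival.coord oI hx1 hx2
  obtain ⟨v, hv, ev', pv⟩ := Ival.coord oJ hy1 hy2
  have key := boxR_sound sA sB sC hS hSm cI cJ h hu hv h0 h1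
  have conv : ∀ P Q : List (List ℕ), shape m P Q D.S = true →
      ev2 (transX I.toIval n (transY J.toIval m (subZ2 P Q))) u v
      = ((I.toIval.c : ℝ) + u * I.toIval.d) ^ n
        * (((J.toIval.c : ℝ) + v * J.toIval.d) ^ m * ev2 (subZ2 P Q) x' y') := by
    intro P Q hs
    obtain ⟨sp, -, sl, -, -, rz, -⟩ := shape_spec m P Q D.S hs
    rw [ev2_transX I.toIval eu v n _ (by simp [transY]; omega), ev2_transY J.toIval ev' m _ rz]
  rw [conv _ _ sA, conv _ _ sB, conv _ _ sC] at key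
  refine nonneg_of_mul_nonneg_right (b := ev2 A x' y' * q ^ 2 - ev2 B x' y' * q + ev2 C x' y')
    (a := ((I.toIval.c : ℝ) + u * I.toIval.d) ^ n * ((J.toIval.c : ℝ) + v * J.toIval.d) ^ m) ?_
    (mul_pos (pow_pos pu n) (pow_pos pv m))
  linarith

theorem check_sound {n m : ℕ} {D : Split} (hD : D.ok n m = true) {q : ℝ} (h0 : 0 ≤ q) (h1 : q ≤ 1) :
    ∀ (t : Tree) (I J : NIval), check n m D t I J = true → ∀ x y : ℝ,
      I.toIval.Mem x → J.toIval.Mem y →
      0 ≤ ev2 (subZ2 D.Ap D.An) x y * q ^ 2 - ev2 (subZ2 D.Bp D.Bn) x y * q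
        + ev2 (subZ2 D.Cp D.Cn) x y
  | .leaf, I, J, h, x, y, hx, hy => by
    change Bool.rec false (Bool.rec false (boxR n m D I J) J.okN) I.okN = true at h
    cases eI : I.okN <;> simp only [eI] at h
    · simp at h
    cases eJ : J.okN <;> simp only [eJ] at h
    · simp at h
    exact leaf_sound hD eI eJ h hx hy h0 h1
  | .splitX p r L R, I, J, h, x, y, hx, hy => by
    change Bool.rec false (check n m D R ⟨p, I.b, r, I.d⟩ J) (check n m D L ⟨I.a, p, I.c, r⟩ J) = true at h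
    cases eL : check n m D L ⟨I.a, p, I.c, r⟩ J <;> simp only [eL] at h
    · simp at h
    rcases le_total ((r : ℝ) * x) p with hp | hp
    · exact check_sound hD h0 h1 L _ _ eL x y ⟨hx.1, by simpa [NIval.toIval] using hp⟩ hy
    · exact check_sound hD h0 h1 R _ _ h x y ⟨by simpa [NIval.toIval] using hp, hx.2⟩ hy
  | .splitY p r L R, I, J, h, x, y, hx, hy => by
    change Bool.rec false (check n m D R I ⟨p, J.b, r, J.d⟩) (check n m D L I ⟨J.a, p, J.c, r⟩) = true at h
    cases eL : check n m D L I ⟨J.a, p, J.c, r⟩ <;> simp only [eL] at h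
    · simp at h
    rcases le_total ((r : ℝ) * y) p with hp | hp
    · exact check_sound hD h0 h1 L _ _ eL x y hx ⟨hy.1, by simpa [NIval.toIval] using hp⟩
    · exact check_sound hD h0 h1 R _ _ h x y hx ⟨by simpa [NIval.toIval] using hp, hy.2⟩

end Vale.P254.E.Pos
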