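import Mathlib
import Vale.Agent.P254.E.CertBase
import Vale.Agent.P254.E.Pos.Tree

/-!
Rational calibrations given by integer coefficient lists; the region inequalities are certified by
packed subdivision checks.
-/

namespace Vale.P254.E

open MeasureTheory Set Filter Topology Pos

/-- `φ = A / (l B)`, `U = (N₀ + N₁ w + N₂ w² + N₃ w³) / M`, `r a = rn / rd`, `lam = ln / ld`. -/
structure CertData where
  A : Poly
  B : Poly
  M : Poly
  N₀ : Poly
  N₁ : Poly
  N₂ : Poly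
  N₃ : Poly
  rn : ℤ
  rd : ℤ
  ln : ℤ
  ld : ℤ

namespace CertData

variable (d : CertData)

/-- The numerator of `φ - φ² - φ'`. -/
def polyE : Poly :=
  add (add (mul d.A (0 :: d.B)) (smul (-1) (mul d.A d.A)))
    (add (smul (-1) (mul (deriv d.A) (0 :: d.B))) (mul d.A (deriv (0 :: d.B))))

/-- `φ`. -/
noncomputable def phi (l : ℝ) : ℝ := ev d.A l / ev (0 :: d.B) l

/-- Its derivative. -/
noncomputable def phi₁ (l : ℝ) : ℝ :=
  (ev (Pos.deriv d.A) l * ev (0 :: d.B) l - ev d.A l * ev (Pos.deriv (0 :: d.B)) l)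
    / ev (0 :: d.B) l ^ 2

/-- The numerator of `U`. -/
noncomputable def num (l w : ℝ) : ℝ :=
  ev d.N₀ l + ev d.N₁ l * w + ev d.N₂ l * w ^ 2 + ev d.N₃ l * w ^ 3

/-- The numerator of `∂U/∂l`, first part. -/
noncomputable def numl (l w : ℝ) : ℝ :=
  ev (Pos.deriv d.N₀) l + ev (Pos.deriv d.N₁) l * w + ev (Pos.deriv d.N₂) l * w ^ 2
    + ev (Pos.deriv d.N₃) l * w ^ 3

/-- The numerator of `∂U/∂w`. -/
noncomputable def numw (l w : ℝ) : ℝ :=
  ev d.N₁ l + 2 * ev d.N₂ l * w + 3 * ev d.N₃ l * w ^ 2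

/-- `U`. -/
noncomputable def U (l w : ℝ) : ℝ := d.num l w / ev d.M l

/-- `∂U/∂l`. -/
noncomputable def Ul (l w : ℝ) : ℝ :=
  (d.numl l w * ev d.M l - d.num l w * ev (Pos.deriv d.M) l) / ev d.M l ^ 2

/-- `∂U/∂w`. -/
noncomputable def Uw (l w : ℝ) : ℝ := d.numw l w / ev d.M l

/-- The numerator as a polynomial, for a given polynomial `w`. -/
def numP (w : Poly2) (a b c e : Poly) : Poly2 :=
  add2 (lift a) (mul2 w (add2 (lift b) (mul2 w (add2 (lift c) (mul2 w (lift e))))))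

/-- Coefficient of `q²`. -/
def coefA (s : Poly2) : Poly2 :=
  mul2 s (lift (smul (d.rn * d.ld) (0 :: mul d.polyE (mul d.M d.M))))

/-- Coefficient of `-q`. -/
def coefB (w s : Poly2) : Poly2 :=
  mul2 s (add2 (lift (smul (d.ld * (d.rd + d.rn)) (mul d.polyE (mul d.M d.M))))
    (mul2 (lift (smul (d.rd * d.ld) (mul d.polyE d.M)))
      (mul2 w (numP w d.N₁ (smul 2 d.N₂) (smul 3 d.N₃) []))))

/-- The constant coefficient; `v` stands for `s (1 - w) / l`. -/
def coefC (w v s : Poly2) : Poly2 :=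
  add2 (mul2 v (add2 (lift (smul (d.rd * d.ld) (mul d.polyE (mul d.M d.M))))
      (mul2 (lift (smul (d.rd * d.ld) (mul d.polyE d.M)))
        (mul2 w (numP w d.N₁ (smul 2 d.N₂) (smul 3 d.N₃) [])))))
    (mul2 s (add2 (add2
      (mul2 (lift (smul (d.rd * d.ld) (mul d.polyE d.M)))
        (numP w (deriv d.N₀) (deriv d.N₁) (deriv d.N₂) (deriv d.N₃)))
      (mul2 (lift (smul (-(d.rd * d.ld)) (mul d.polyE (add d.M (deriv d.M)))))
        (numP w d.N₀ d.N₁ d.N₂ d.N₃)))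
      (mul2 (lift (smul (-(d.rd * d.ln)) (mul (mul d.B d.B) (mul d.M d.M)))) (mul2 w w))))

/-- Nonnegative coefficients, positive at `0`. -/
def posPoly : Poly → Bool
  | [] => false
  | c :: t => decide (1 ≤ c) && t.all fun e => decide (0 ≤ e)

/-- A bound for the coefficients of `A`. -/
def boundA : ℤ := (d.A.map fun c => (c.natAbs : ℤ)).sum

/-- The signs. -/
def okSign : Bool :=
  posPoly d.B && posPoly d.M && decide (0 < d.rd) && decide (0 < d.ld) && decide (0 ≤ d.ln) &&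
    (add (smul d.boundA (mul [1, 1] d.B)) d.A).all (fun e => decide (0 ≤ e)) &&
    (add (smul d.boundA (mul [1, 1] d.B)) (smul (-1) d.A)).all (fun e => decide (0 ≤ e))

/-- Whether `D` represents the three coefficients. -/
def represents (D : Split) (n m : ℕ) (A B C : Poly2) : Bool :=
  D.ok n m && decide (subZ2 D.Ap D.An = A) && decide (subZ2 D.Bp D.Bn = B) &&
    decide (subZ2 D.Cp D.Cn = C)

/-- Region `0 ≤ l ≤ 2`, with `w = 1 - l v`, `0 ≤ v ≤ 1/2`. -/
def reprNear (n m : ℕ) (D : Split) : Bool :=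
  represents D n m (d.coefA [[1]]) (d.coefB [[1], [0, -1]] [[1]])
    (d.coefC [[1], [0, -1]] [[0, 1]] [[1]])

/-- Region `2 ≤ l`, with `0 ≤ w ≤ 1`. -/
def reprFar (n m : ℕ) (D : Split) : Bool :=
  represents D n m (d.coefA [[], [1]]) (d.coefB [[0, 1]] [[], [1]])
    (d.coefC [[0, 1]] [[1, -1]] [[], [1]])

/-- The weight is positive. -/
def okKap : Bool :=
  posPoly d.polyE

theorem ev_nonneg : ∀ p : Poly, (p.all fun e => decide (0 ≤ e)) = true → ∀ x : ℝ, 0 ≤ x → 0 ≤ ev p x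
  | [], _, x, _ => by simp
  | c :: t, h, x, hx => by
    simp only [List.all_cons, Bool.and_eq_true, decide_eq_true_eq] at h
    have hc : (0 : ℝ) ≤ c := by exact_mod_cast h.1
    simp only [ev_cons]
    linarith [mul_nonneg hx (ev_nonneg t h.2 x hx)]

theorem one_le_ev {p : Poly} (h : posPoly p = true) {x : ℝ} (hx : 0 ≤ x) : 1 ≤ ev p x := by
  rcases p with _ | ⟨c, t⟩
  · simp [posPoly] at h
  simp only [posPoly, Bool.and_eq_true, decide_eq_true_eq] at h
  have hc : (1 : ℝ) ≤ c := by exact_mod_cast h.1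
  simp only [ev_cons]
  linarith [mul_nonneg hx (ev_nonneg t h.2 x hx)]

theorem exists_growth : ∀ p : Poly, ∃ C, 0 ≤ C ∧ ∀ x : ℝ, 0 ≤ x → |ev p x| ≤ C * (1 + x) ^ p.length
  | [] => ⟨0, le_rfl, fun x _ => by simp⟩
  | c :: t => by
    obtain ⟨C, hC, h⟩ := exists_growth t
    refine ⟨|(c : ℝ)| + C, by positivity, fun x hx => ?_⟩
    simp only [ev_cons, List.length_cons, pow_succ]
    have h1 := h x hx
    have hp : (1 : ℝ) ≤ (1 + x) ^ t.length := one_le_pow₀ (by linarith)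
    have hq : (1 : ℝ) ≤ (1 + x) ^ t.length * (1 + x) := by nlinarith
    refine (abs_add_le _ _).trans ?_
    rw [abs_mul, abs_of_nonneg hx]
    nlinarith [mul_le_mul_of_nonneg_left h1 hx, mul_le_mul_of_nonneg_left hq (abs_nonneg (c : ℝ)),
      mul_nonneg hC (pow_nonneg (show (0 : ℝ) ≤ 1 + x by linarith) t.length)]

theorem poly_identity (w v s : Poly2) (l y W V S : ℝ) (hw : ev2 w l y = W) (hv : ev2 v l y = V)
    (hs : ev2 s l y = S) (q : ℝ) :
    ev2 (d.coefA s) l y * q ^ 2 - ev2 (d.coefB w s) l y * q + ev2 (d.coefC w v s) l y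
      = S * (d.rn * d.ld) * (l * (ev d.polyE l * ev d.M l ^ 2)) * q ^ 2
        - S * ((d.ld * (d.rd + d.rn)) * (ev d.polyE l * ev d.M l ^ 2)
          + d.rd * d.ld * (ev d.polyE l * ev d.M l) * (W * d.numw l W)) * q
        + (V * (d.rd * d.ld * (ev d.polyE l * ev d.M l ^ 2)
            + d.rd * d.ld * (ev d.polyE l * ev d.M l) * (W * d.numw l W))
          + S * (d.rd * d.ld * (ev d.polyE l * ev d.M l) * d.numl l W
            - d.rd * d.ld * (ev d.polyE l * (ev d.M l + ev (Pos.deriv d.M) l)) * d.num l W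
            - d.rd * d.ln * (ev d.B l ^ 2 * ev d.M l ^ 2) * W ^ 2)) := by
  simp only [coefA, coefB, coefC, numP, num, numl, numw, ev2_add, ev2_mul, ev2_lift, ev_smul, ev_mul,
    ev_add, ev_cons, ev_nil, hw, hv, hs]
  push_cast
  ring

/-- The calibration inequality, cleared of denominators, holds for `l` in `S`. -/
def RegionOK (S : Set ℝ) : Prop :=
  ∀ l w q : ℝ, 0 < l → l ∈ S → 0 < w → w ≤ 1 → 1 - l / 2 ≤ w → 0 ≤ q → q ≤ 1 →
    0 ≤ (d.rn : ℝ) * d.ld * (l * (ev d.polyE l * ev d.M l ^ 2)) * q ^ 2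
        - ((d.ld * (d.rd + d.rn)) * (ev d.polyE l * ev d.M l ^ 2)
          + d.rd * d.ld * (ev d.polyE l * ev d.M l) * (w * d.numw l w)) * q
        + ((1 - w) / l * (d.rd * d.ld * (ev d.polyE l * ev d.M l ^ 2)
            + d.rd * d.ld * (ev d.polyE l * ev d.M l) * (w * d.numw l w))
          + (d.rd * d.ld * (ev d.polyE l * ev d.M l) * d.numl l w
            - d.rd * d.ld * (ev d.polyE l * (ev d.M l + ev (Pos.deriv d.M) l)) * d.num l w
            - d.rd * d.ln * (ev d.B l ^ 2 * ev d.M l ^ 2) * w ^ 2))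

/-- The inequality for `l ≤ 2`. -/
def NearOK : Prop := d.RegionOK (Iic 2)

/-- The inequality for `2 ≤ l`. -/
def FarOK : Prop := d.RegionOK (Ici 2)

theorem nearOK {n₁ m₁ : ℕ} {D₁ : Split} {t₁ : Tree} (r₁ : d.reprNear n₁ m₁ D₁ = true)
    (c₁ : check n₁ m₁ D₁ t₁ ⟨0, 2, 1, 1⟩ ⟨0, 1, 1, 2⟩ = true) : d.NearOK := by
  intro l w q hl hl2 hw hw1 hw2 hq0 hq1
  simp only [mem_Iic] at hl2
  simp only [reprNear, represents, Bool.and_eq_true, decide_eq_true_eq] at r₁
  obtain ⟨⟨⟨hD₁, eA⟩, eB⟩, eC⟩ := r₁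
  have := check_sound hD₁ hq0 hq1 t₁ _ _ c₁ l ((1 - w) / l)
    ⟨by simp [NIval.toIval]; linarith, by simp [NIval.toIval]; linarith⟩
    ⟨by simp [NIval.toIval]; exact div_nonneg (by linarith) hl.le, by
      simp only [NIval.toIval]; push_cast; rw [mul_div_assoc', div_le_iff₀ hl]; linarith⟩
  rw [eA, eB, eC] at this
  rw [d.poly_identity _ _ _ l _ w ((1 - w) / l) 1 (by simp; field_simp; ring) (by simp)
    (by simp)] at this
  linarith

theorem farOK {n₂ m₂ : ℕ} {D₂ : Split} {t₂ : Tree} (r₂ : d.reprFar n₂ m₂ D₂ = true)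
    (c₂ : check n₂ m₂ D₂ t₂ ⟨2, 1, 1, 0⟩ ⟨0, 1, 1, 1⟩ = true) : d.FarOK := by
  intro l w q hl hl2 hw hw1 hw2 hq0 hq1
  simp only [mem_Ici] at hl2
  simp only [reprFar, represents, Bool.and_eq_true, decide_eq_true_eq] at r₂
  obtain ⟨⟨⟨hD₂, eA⟩, eB⟩, eC⟩ := r₂
  have := check_sound hD₂ hq0 hq1 t₂ _ _ c₂ l w
    ⟨by simp [NIval.toIval]; linarith, by simp [NIval.toIval]⟩
    ⟨by simp [NIval.toIval]; linarith, by simp [NIval.toIval]; linarith⟩
  rw [eA, eB, eC] at this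
  rw [d.poly_identity _ _ _ l _ w (1 - w) l (by simp) (by simp; ring) (by simp)] at this
  refine nonneg_of_mul_nonneg_right (a := l) ?_ hl
  refine le_trans this (le_of_eq ?_)
  field_simp

theorem calib (hs : d.okSign = true) (h₁ : d.NearOK) (h₂ : d.FarOK) (hk : d.okKap = true)
    {r a lam U₀ : ℝ} (hra : r * a * d.rd = d.rn) (hlam : lam * d.ld = d.ln)
    (hU₀ : U₀ * ev d.M 0 = d.num 0 1) :
    Calib d.phi d.phi₁ r a lam U₀ d.U d.Ul d.Uw := by
  simp only [okSign, Bool.and_eq_true, decide_eq_true_eq] at hs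
  obtain ⟨⟨⟨⟨⟨⟨hB, hM⟩, hrd⟩, hld⟩, hln⟩, hA₁⟩, hA₂⟩ := hs
  have hrd' : (0 : ℝ) < d.rd := by exact_mod_cast hrd
  have hld' : (0 : ℝ) < d.ld := by exact_mod_cast hld
  have hln' : (0 : ℝ) ≤ d.ln := by exact_mod_cast hln
  have hB1 : ∀ l : ℝ, 0 < l → 0 < ev d.B l := fun l hl => lt_of_lt_of_le one_pos (one_le_ev hB hl.le)
  have hlB : ∀ l : ℝ, ev (0 :: d.B) l = l * ev d.B l := fun l => by simp
  have hM1 : ∀ l : ℝ, 0 ≤ l → 0 < ev d.M l := fun l hl => lt_of_lt_of_le one_pos (one_le_ev hM hl)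
  have hE : ∀ l : ℝ, 0 ≤ l → 0 < ev d.polyE l := fun l hl =>
    lt_of_lt_of_le one_pos (one_le_ev hk hl)
  have hD : ∀ l : ℝ, 0 < l →
      d.phi l - d.phi l ^ 2 - d.phi₁ l = ev d.polyE l / (l ^ 2 * ev d.B l ^ 2) := by
    intro l hl
    have := (hB1 l hl).ne'
    have := hl.ne'
    simp only [phi, phi₁, hlB, polyE, ev_add, ev_mul, ev_smul]
    field_simp
    push_cast
    ring
  have hphi : ∀ l, 0 < l → HasDerivAt d.phi (d.phi₁ l) l := fun l hl =>
    (hasDerivAt_ev d.A l).div (hasDerivAt_ev (0 :: d.B) l)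
      (by rw [hlB]; exact (mul_pos hl (hB1 l hl)).ne')
  refine ⟨⟨hphi, ?_, fun l hl => ?_, ?_⟩, ?_, fun l w hl _ _ => ?_, ?_, ?_, fun l w q hl hw hw1 hw2 hq0 hq1 => ?_⟩
  · exact ((((continuous_ev _).mul (continuous_ev _)).sub ((continuous_ev _).mul
      (continuous_ev _))).continuousOn).div ((continuous_ev _).pow 2).continuousOn
      fun l hl => pow_ne_zero 2 (by rw [hlB]; exact (mul_pos hl (hB1 l hl)).ne')
  · rw [hD l hl]; exact div_pos (hE l hl.le) (mul_pos (pow_pos hl 2) (pow_pos (hB1 l hl) 2))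
  · refine ⟨d.boundA, fun l hl => ?_⟩
    have a1 := ev_nonneg _ hA₁ l hl.le
    have a2 := ev_nonneg _ hA₂ l hl.le
    simp only [ev_add, ev_smul, ev_mul, ev_cons, ev_nil, Int.cast_one, mul_zero, add_zero,
      Int.cast_neg] at a1 a2
    have hp := hB1 l hl
    rw [phi, hlB, abs_div, abs_of_pos (mul_pos hl hp), div_le_iff₀ (mul_pos hl hp)]
    have e : (d.boundA : ℝ) * (1 + 1 / l) * (l * ev d.B l) = d.boundA * ((1 + l * 1) * ev d.B l) := by
      field_simp
      ring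
    rw [e, abs_le]
    constructor <;> linarith
  · nlinarith
  · have hM' := (hM1 l hl.le).ne'
    have h0 := (hasDerivAt_ev d.N₀ l).comp_hasFDerivAt (l, w) (hasFDerivAt_fst (𝕜 := ℝ) (p := (l, w)))
    have h1 := ((hasDerivAt_ev d.N₁ l).comp_hasFDerivAt (l, w) (hasFDerivAt_fst (𝕜 := ℝ) (p := (l, w)))).mul
      (hasFDerivAt_snd (𝕜 := ℝ) (p := (l, w)))
    have h2 := ((hasDerivAt_ev d.N₂ l).comp_hasFDerivAt (l, w) (hasFDerivAt_fst (𝕜 := ℝ) (p := (l, w)))).mul
      ((hasFDerivAt_snd (𝕜 := ℝ) (p := (l, w))).pow 2)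
    have h3 := ((hasDerivAt_ev d.N₃ l).comp_hasFDerivAt (l, w) (hasFDerivAt_fst (𝕜 := ℝ) (p := (l, w)))).mul
      ((hasFDerivAt_snd (𝕜 := ℝ) (p := (l, w))).pow 3)
    have hm := ((hasDerivAt_ev d.M l).inv hM').comp_hasFDerivAt (l, w)
      (hasFDerivAt_fst (𝕜 := ℝ) (p := (l, w)))
    refine ((((h0.add h1).add h2).add h3).mul hm).congr_fderiv ?_ |>.congr_of_eventuallyEq
      (Eventually.of_forall fun p => ?_)
    · ext <;> simp [Ul, Uw, num, numl, numw] <;> field_simp <;> ring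
    · simp [U, num, div_eq_mul_inv]
  · have hc : ContinuousAt (fun p : ℝ × ℝ => d.U p.1 p.2) (0, 1) := by
      simp only [U, num]
      refine ContinuousAt.div ?_ ((continuous_ev _).comp continuous_fst).continuousAt (hM1 0 le_rfl).ne'
      have := continuous_ev d.N₀; have := continuous_ev d.N₁
      have := continuous_ev d.N₂; have := continuous_ev d.N₃
      fun_prop
    have e : U₀ = d.U 0 1 := by rw [U, eq_div_iff (hM1 0 le_rfl).ne', hU₀]
    rw [e]
    exact hc.tendsto.mono_left nhdsWithin_le_nhds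
  · obtain ⟨C0, hC0, b0⟩ := exists_growth d.N₀
    obtain ⟨C1, hC1, b1⟩ := exists_growth d.N₁
    obtain ⟨C2, hC2, b2⟩ := exists_growth d.N₂
    obtain ⟨C3, hC3, b3⟩ := exists_growth d.N₃
    set k := d.N₀.length + d.N₁.length + d.N₂.length + d.N₃.length
    refine ⟨(C0 + C1 + C2 + C3) * 2 ^ k, k, fun l w hl hw hw1 => ?_⟩
    have hl0 : (0 : ℝ) ≤ l := by linarith
    have up : ∀ {C : ℝ} {j : ℕ} {x : ℝ}, 0 ≤ C → j ≤ k → |x| ≤ C * (1 + l) ^ j → ∀ i : ℕ,
        |x * w ^ i| ≤ C * (1 + l) ^ k := fun {C j x} hC hj hx i => by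
      rw [abs_mul, abs_of_nonneg (pow_nonneg hw.le i)]
      exact (mul_le_of_le_one_right (abs_nonneg _) (pow_le_one₀ hw.le hw1)).trans
        (hx.trans (mul_le_mul_of_nonneg_left (pow_le_pow_right₀ (by linarith) hj) hC))
    have e0 := up hC0 (by omega) (b0 l hl0) 0
    have e1 := up hC1 (by omega) (b1 l hl0) 1
    have e2 := up hC2 (by omega) (b2 l hl0) 2
    have e3 := up hC3 (by omega) (b3 l hl0) 3
    have hpow : (1 + l) ^ k ≤ 2 ^ k * (1 + l ^ k) := by
      calc (1 + l) ^ k ≤ (2 * l) ^ k := pow_le_pow_left₀ (by linarith) (by linarith) k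
        _ = 2 ^ k * l ^ k := mul_pow _ _ _
        _ ≤ _ := mul_le_mul_of_nonneg_left (by linarith) (by positivity)
    have hn : |d.num l w| ≤ (C0 + C1 + C2 + C3) * (1 + l) ^ k := by
      simp only [num, pow_one, pow_zero, mul_one] at *
      rw [abs_le] at *
      constructor <;> nlinarith
    rw [U, abs_div, abs_of_pos (hM1 l hl0), div_le_iff₀ (hM1 l hl0)]
    refine hn.trans ?_
    have h5 := mul_le_mul_of_nonneg_left hpow (show 0 ≤ C0 + C1 + C2 + C3 by linarith)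
    have h6 := one_le_ev hM hl0
    have h7 : 0 ≤ (C0 + C1 + C2 + C3) * 2 ^ k * (1 + l ^ k) := by positivity
    nlinarith [mul_le_mul_of_nonneg_left h6 h7]
  · have key : 0 ≤ (d.rn : ℝ) * d.ld * (l * (ev d.polyE l * ev d.M l ^ 2)) * q ^ 2
        - ((d.ld * (d.rd + d.rn)) * (ev d.polyE l * ev d.M l ^ 2)
          + d.rd * d.ld * (ev d.polyE l * ev d.M l) * (w * d.numw l w)) * q
        + ((1 - w) / l * (d.rd * d.ld * (ev d.polyE l * ev d.M l ^ 2)
            + d.rd * d.ld * (ev d.polyE l * ev d.M l) * (w * d.numw l w))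
          + (d.rd * d.ld * (ev d.polyE l * ev d.M l) * d.numl l w
            - d.rd * d.ld * (ev d.polyE l * (ev d.M l + ev (Pos.deriv d.M) l)) * d.num l w
            - d.rd * d.ln * (ev d.B l ^ 2 * ev d.M l ^ 2) * w ^ 2)) := by
      rcases le_total l 2 with hl2 | hl2
      · exact h₁ l w q hl hl2 hw hw1 hw2 hq0 hq1
      · exact h₂ l w q hl hl2 hw hw1 hw2 hq0 hq1
    have hden : (0 : ℝ) < d.rd * d.ld * (ev d.polyE l * ev d.M l ^ 2) := by
      have := hE l hl.le; have := hM1 l hl.le; positivity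
    refine nonneg_of_mul_nonneg_right (a := (d.rd : ℝ) * d.ld * (ev d.polyE l * ev d.M l ^ 2)) ?_ hden
    refine le_trans key (le_of_eq ?_)
    have h1 := (hM1 l hl.le).ne'
    have h2 := (hE l hl.le).ne'
    have h3 := hl.ne'
    have h4 := (hB1 l hl).ne'
    rw [kapOf, hD l hl, one_div_div, ← hra, ← hlam]
    simp only [U, Ul, Uw]
    field_simp
    ring

end CertData

end Vale.P254.E
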